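import Vale.Agent.P105.Number

/-!
# Well separated approximations to the rotation number
-/

namespace Vale.Agent.P105

noncomputable def phi : ℝ := Complex.arg wc / Real.pi

/-- The distance from q phi to the integers. -/
noncomputable def dd (q : ℕ) : ℝ := |(q : ℝ) * phi - round ((q : ℝ) * phi)|

lemma dd_le_half (q : ℕ) : dd q ≤ 1 / 2 := abs_sub_round _

lemma dd_nonneg (q : ℕ) : 0 ≤ dd q := abs_nonneg _

lemma norm_eq'_sin (q : ℕ) :
    ‖eq' q‖ = 2 * |Real.sin (Real.pi * ((q : ℝ) * phi - round ((q : ℝ) * phi)))| := by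
  have hw : wc = Complex.exp ((Complex.arg wc : ℂ) * Complex.I) := by
    have := Complex.norm_mul_exp_arg_mul_I wc
    rw [wc_norm] at this
    simpa using this.symm
  have hp : wc ^ q = Complex.exp ((((q : ℝ) * Complex.arg wc : ℝ) : ℂ) * Complex.I) := by
    conv_lhs => rw [hw, ← Complex.exp_nat_mul]
    push_cast; ring_nf
  have he : eq' q = ((2 * (wc ^ q).im : ℝ) : ℂ) * Complex.I := by
    rw [eq', zpow_neg, zpow_natCast, ← inv_pow, wc_inv, ← map_pow, Complex.sub_conj]
  rw [he, norm_mul, Complex.norm_real, Complex.norm_I, mul_one, Real.norm_eq_abs, abs_mul,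
    abs_two, hp, Complex.exp_ofReal_mul_I_im]
  congr 1
  have : (q : ℝ) * Complex.arg wc
      = Real.pi * ((q : ℝ) * phi - round ((q : ℝ) * phi))
        + (round ((q : ℝ) * phi) : ℤ) * Real.pi := by
    unfold phi; field_simp; ring
  rw [this, Real.sin_add_int_mul_pi]
  simp [abs_mul]

lemma eq'_le_dd (q : ℕ) : ‖eq' q‖ ≤ 7 * dd q := by
  rw [norm_eq'_sin]
  have h1 : |Real.sin (Real.pi * ((q : ℝ) * phi - round ((q : ℝ) * phi)))|
      ≤ |Real.pi * ((q : ℝ) * phi - round ((q : ℝ) * phi))| := Real.abs_sin_le_abs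
  rw [abs_mul, abs_of_pos Real.pi_pos] at h1
  have h2 : Real.pi ≤ 7 / 2 := by linarith [Real.pi_lt_d2]
  have := dd_nonneg q
  unfold dd at this ⊢
  nlinarith

lemma dd_pos {q : ℕ} (hq : 1 ≤ q) : 0 < dd q := by
  have := eq'_pos hq
  have := eq'_le_dd q
  linarith

/-- An approximation at scale B such that every much better one is ten times longer. -/
lemma approx {B : ℝ} (hB : 1 ≤ B) :
    ∃ q : ℕ, 1 ≤ q ∧ (q : ℝ) ≤ 10 * B ∧ dd q ≤ 1 / B ∧
      ∀ p : ℕ, 1 ≤ p → dd p ≤ 1 / (200 * B) → dd p ≤ dd q / 2 → 10 * q ≤ p := by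
  classical
  by_cases hex : ∃ q : ℕ, 1 ≤ q ∧ (q : ℝ) ≤ 10 * B ∧ dd q ≤ 1 / (200 * B)
  · obtain ⟨hq1, hq2, hq3⟩ := Nat.find_spec hex
    set q := Nat.find hex with hqdef
    refine ⟨q, hq1, hq2, hq3.trans ?_, fun p hp1 hp2 hp3 => ?_⟩
    · rw [one_div_le_one_div (by linarith) (by linarith)]; linarith
    by_contra hlt
    have hlt' : (p : ℝ) < 10 * q := by exact_mod_cast not_le.mp hlt
    have hqp : q ≤ p := by
      by_contra h'
      have h'' : (p : ℝ) ≤ q := by exact_mod_cast (not_le.mp h').le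
      exact Nat.find_min hex (not_le.mp h') ⟨hp1, h''.trans hq2, hp2⟩
    set a : ℤ := round ((q : ℝ) * phi) with ha
    set b : ℤ := round ((p : ℝ) * phi) with hb
    have hdq : dd q = |(q : ℝ) * phi - a| := rfl
    have hdp : dd p = |(p : ℝ) * phi - b| := rfl
    have hpos : 0 < dd p := dd_pos hp1
    by_cases hz : (a * (p : ℤ) - b * (q : ℤ)) = 0
    · have hz' : (a : ℝ) * p = (b : ℝ) * q := by
        have : a * (p : ℤ) = b * (q : ℤ) := by linarith
        exact_mod_cast this
      have : (q : ℝ) * dd p = (p : ℝ) * dd q := by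
        have hq0 : (0 : ℝ) ≤ q := Nat.cast_nonneg q
        have hp0 : (0 : ℝ) ≤ p := Nat.cast_nonneg p
        rw [hdq, hdp, ← abs_of_nonneg hq0, ← abs_of_nonneg hp0, ← abs_mul, ← abs_mul]
        simp only [abs_of_nonneg hq0, abs_of_nonneg hp0]
        congr 1
        linear_combination hz'
      have hqp' : (q : ℝ) ≤ p := by exact_mod_cast hqp
      have hq0 : (1 : ℝ) ≤ q := by exact_mod_cast hq1
      nlinarith
    · have h1 : (1 : ℝ) ≤ |(a : ℝ) * p - (b : ℝ) * q| := by
        have := Int.one_le_abs hz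
        exact_mod_cast this
      have h2 : |(a : ℝ) * p - (b : ℝ) * q| ≤ (q : ℝ) * dd p + (p : ℝ) * dd q := by
        have e : (a : ℝ) * p - (b : ℝ) * q
            = (q : ℝ) * ((p : ℝ) * phi - b) - (p : ℝ) * ((q : ℝ) * phi - a) := by ring
        rw [e, hdq, hdp]
        refine (abs_sub _ _).trans_eq ?_
        rw [abs_mul, abs_mul, Nat.abs_cast, Nat.abs_cast]
      have h3 : (q : ℝ) * dd p ≤ 10 * B * (1 / (200 * B)) :=
        mul_le_mul hq2 hp2 (dd_nonneg p) (by linarith)
      have h4 : (p : ℝ) * dd q ≤ 100 * B * (1 / (200 * B)) :=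
        mul_le_mul (by linarith) hq3 (dd_nonneg q) (by linarith)
      have e1 : 10 * B * (1 / (200 * B)) = 1 / 20 := by field_simp; ring
      have e2 : 100 * B * (1 / (200 * B)) = 1 / 2 := by field_simp; ring
      linarith
  · push Not at hex
    obtain ⟨j, k, hk0, hkn, hjk⟩ :=
      Real.exists_int_int_abs_mul_sub_le phi (Nat.floor_pos.mpr hB)
    obtain ⟨q, rfl⟩ : ∃ q : ℕ, k = (q : ℤ) := ⟨k.toNat, by omega⟩
    have hqB : (q : ℝ) ≤ B := by
      have : (q : ℝ) ≤ (⌊B⌋₊ : ℝ) := by exact_mod_cast (show q ≤ ⌊B⌋₊ by omega)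
      exact this.trans (Nat.floor_le (by linarith))
    refine ⟨q, by omega, by linarith, ?_, fun p hp1 hp2 _ => ?_⟩
    · have h1 : dd q ≤ |(q : ℝ) * phi - j| := round_le _ j
      refine h1.trans ?_
      push_cast at hjk
      refine hjk.trans ?_
      rw [one_div_le_one_div (by positivity) (by linarith)]
      linarith [Nat.lt_floor_add_one B]
    · by_contra hlt
      have hlt' : (p : ℝ) ≤ 10 * q := by exact_mod_cast (not_le.mp hlt).le
      have := hex p hp1 (by linarith)
      linarith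

end Vale.Agent.P105
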