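import Vale.Agent.P105.Defs

/-!
# Cosine expectations for Bernoulli convolutions
-/

namespace Vale.Agent.P105

open MeasureTheory Filter Finset
open scoped Topology

noncomputable def seriesValue (l : ℝ) (e : ℕ → Bool) : ℝ := ∑' n : ℕ, signValue (e n) * l ^ n

noncomputable def partSum (l : ℝ) (M : ℕ) (e : ℕ → Bool) : ℝ :=
  ∑ n ∈ Finset.range M, signValue (e n) * l ^ n

instance : IsProbabilityMeasure coinMeasure := by
  unfold coinMeasure; infer_instance

lemma abs_signValue (b : Bool) : |signValue b| = 1 := by cases b <;> simp [signValue]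

lemma summable_series {l : ℝ} (h0 : 0 ≤ l) (h1 : l < 1) (e : ℕ → Bool) :
    Summable fun n : ℕ => signValue (e n) * l ^ n := by
  refine Summable.of_norm_bounded (summable_geometric_of_lt_one h0 h1) fun n => ?_
  rw [Real.norm_eq_abs, abs_mul, abs_signValue, one_mul, abs_of_nonneg (pow_nonneg h0 n)]

lemma tendsto_partSum {l : ℝ} (h0 : 0 ≤ l) (h1 : l < 1) (e : ℕ → Bool) :
    Tendsto (fun M => partSum l M e) atTop (𝓝 (seriesValue l e)) :=
  (summable_series h0 h1 e).hasSum.tendsto_sum_nat

lemma measurable_partSum (l : ℝ) (M : ℕ) : Measurable (partSum l M) := by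
  unfold partSum
  refine Finset.measurable_sum _ fun n _ => ?_
  exact ((measurable_of_countable signValue).comp (measurable_pi_apply n)).mul_const _

lemma measurable_seriesValue {l : ℝ} (h0 : 0 ≤ l) (h1 : l < 1) : Measurable (seriesValue l) :=
  measurable_of_tendsto_metrizable (measurable_partSum l)
    (tendsto_pi_nhds.mpr fun e => tendsto_partSum h0 h1 e)

lemma abs_seriesValue_le {l : ℝ} (h0 : 0 ≤ l) (h1 : l < 1) (e : ℕ → Bool) :
    |seriesValue l e| ≤ (1 - l)⁻¹ := by
  rw [seriesValue, ← tsum_geometric_of_lt_one h0 h1, ← Real.norm_eq_abs]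
  refine tsum_of_norm_bounded (summable_geometric_of_lt_one h0 h1).hasSum fun n => ?_
  rw [Real.norm_eq_abs, abs_mul, abs_signValue, one_mul, abs_of_nonneg (pow_nonneg h0 n)]

lemma integral_cexp_partSum (l t : ℝ) (M : ℕ) :
    ∫ e, Complex.exp (((t * partSum l M e : ℝ) : ℂ) * Complex.I) ∂coinMeasure
      = ((∏ i ∈ Finset.range M, Real.cos (t * l ^ i) : ℝ) : ℂ) := by
  set g : ℕ → Bool → ℂ := fun i b =>
    Complex.exp (((t * (signValue b * l ^ i) : ℝ) : ℂ) * Complex.I) with hg
  have h1 : ∀ e : ℕ → Bool, Complex.exp (((t * partSum l M e : ℝ) : ℂ) * Complex.I)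
      = ∏ i : (Finset.range M), g i ((Finset.range M).restrict e i) := by
    intro e
    simp only [Finset.restrict, hg]
    rw [Finset.prod_coe_sort (Finset.range M)
      (fun i => Complex.exp (((t * (signValue (e i) * l ^ i) : ℝ) : ℂ) * Complex.I)),
      ← Complex.exp_sum, ← Finset.sum_mul]
    congr 1
    unfold partSum
    push_cast
    rw [Finset.mul_sum]
  simp only [h1]
  refine (integral_restrict_infinitePi (μ := fun _ : ℕ => (PMF.uniformOfFintype Bool).toMeasure)
      (s := Finset.range M)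
      (f := fun y : (Finset.range M) → Bool => ∏ i : (Finset.range M), g i (y i)) ?_).trans ?_
  swap
  · rw [integral_fintype_prod_eq_prod (fun (i : (Finset.range M)) b => g i b)]
    rw [← Finset.prod_coe_sort (Finset.range M) (fun i => Real.cos (t * l ^ i))]
    push_cast
    refine Finset.prod_congr rfl fun i _ => ?_
    rw [PMF.integral_eq_sum, Fintype.sum_bool]
    simp [hg, signValue, PMF.uniformOfFintype_apply, Complex.cos]
    ring_nf
  · exact (measurable_of_countable _).aestronglyMeasurable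

lemma integral_cos_partSum (l t : ℝ) (M : ℕ) :
    ∫ e, Real.cos (t * partSum l M e) ∂coinMeasure
      = ∏ i ∈ Finset.range M, Real.cos (t * l ^ i) := by
  have h := congrArg Complex.re (integral_cexp_partSum l t M)
  rw [Complex.ofReal_re] at h
  rw [← h]
  have hint : Integrable (fun e => Complex.exp (((t * partSum l M e : ℝ) : ℂ) * Complex.I))
      coinMeasure := by
    refine Integrable.of_bound ?_ 1 (ae_of_all _ fun e => ?_)
    · exact ((Complex.measurable_exp).comp ((Complex.measurable_ofReal.comp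
        ((measurable_partSum l M).const_mul t)).mul_const _)).aestronglyMeasurable
    · rw [Complex.norm_exp_ofReal_mul_I]
  have := (integral_re hint)
  simp only [RCLike.re_to_complex, Complex.exp_ofReal_mul_I_re] at this
  exact this

lemma tendsto_integral_cos {l : ℝ} (h0 : 0 ≤ l) (h1 : l < 1) (t : ℝ) :
    Tendsto (fun M => ∏ i ∈ Finset.range M, Real.cos (t * l ^ i)) atTop
      (𝓝 (∫ e, Real.cos (t * seriesValue l e) ∂coinMeasure)) := by
  simp only [← integral_cos_partSum]
  refine tendsto_integral_of_dominated_convergence (fun _ => (1 : ℝ)) (fun M => ?_)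
    (integrable_const _) (fun M => ae_of_all _ fun e => ?_) (ae_of_all _ fun e => ?_)
  · exact (Real.measurable_cos.comp ((measurable_partSum l M).const_mul t)).aestronglyMeasurable
  · rw [Real.norm_eq_abs]; exact Real.abs_cos_le_one _
  · exact (Real.continuous_cos.tendsto _).comp ((tendsto_partSum h0 h1 e).const_mul t)

lemma integrable_cos_series {l : ℝ} (h0 : 0 ≤ l) (h1 : l < 1) (t : ℝ) :
    Integrable (fun e => Real.cos (t * seriesValue l e)) coinMeasure :=
  Integrable.of_bound
    (Real.measurable_cos.comp ((measurable_seriesValue h0 h1).const_mul t)).aestronglyMeasurable 1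
    (ae_of_all _ fun e => by rw [Real.norm_eq_abs]; exact Real.abs_cos_le_one _)

lemma abs_prod_sub_prod_le (x y : ℕ → ℝ) (hx : ∀ i, |x i| ≤ 1) (hy : ∀ i, |y i| ≤ 1) (M : ℕ) :
    |(∏ i ∈ Finset.range M, x i) - ∏ i ∈ Finset.range M, y i|
      ≤ ∑ i ∈ Finset.range M, |x i - y i| := by
  induction M with
  | zero => simp
  | succ M ih =>
    rw [Finset.prod_range_succ, Finset.prod_range_succ, Finset.sum_range_succ]
    have hY : |∏ i ∈ Finset.range M, y i| ≤ 1 := by
      rw [Finset.abs_prod]
      exact Finset.prod_le_one (fun i _ => abs_nonneg _) fun i _ => hy i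
    set X := ∏ i ∈ Finset.range M, x i
    set Y := ∏ i ∈ Finset.range M, y i
    have e : X * x M - Y * y M = (X - Y) * x M + Y * (x M - y M) := by ring
    rw [e]
    refine (abs_add_le _ _).trans (add_le_add ?_ ?_) <;> rw [abs_mul]
    · exact (mul_le_of_le_one_right (abs_nonneg _) (hx M)).trans ih
    · exact mul_le_of_le_one_left (abs_nonneg _) hY

/-- The covariance of two cosines is controlled by the overlap of their factors. -/
lemma cov_le {l : ℝ} (h0 : 0 ≤ l) (h1 : l < 1) {a b C : ℝ}
    (hC : ∀ M, ∑ i ∈ Finset.range M, |Real.sin (a * l ^ i)| * |Real.sin (b * l ^ i)| ≤ C) :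
    |(∫ e, Real.cos (a * seriesValue l e) * Real.cos (b * seriesValue l e) ∂coinMeasure)
      - (∫ e, Real.cos (a * seriesValue l e) ∂coinMeasure)
        * ∫ e, Real.cos (b * seriesValue l e) ∂coinMeasure| ≤ C := by
  have e1 : (∫ e, Real.cos (a * seriesValue l e) * Real.cos (b * seriesValue l e) ∂coinMeasure)
      = ((∫ e, Real.cos ((a + b) * seriesValue l e) ∂coinMeasure)
        + ∫ e, Real.cos ((a - b) * seriesValue l e) ∂coinMeasure) / 2 := by
    rw [← integral_add (integrable_cos_series h0 h1 _) (integrable_cos_series h0 h1 _),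
      ← integral_div]
    congr 1
    funext e
    rw [add_mul, sub_mul, Real.cos_add, Real.cos_sub]; ring
  rw [e1]
  have hlim := ((((tendsto_integral_cos h0 h1 (a + b)).add
    (tendsto_integral_cos h0 h1 (a - b))).div_const 2).sub
    ((tendsto_integral_cos h0 h1 a).mul (tendsto_integral_cos h0 h1 b))).abs
  refine le_of_tendsto' hlim fun M => ?_
  have hd : ∀ c : ℝ, (∀ i, |Real.cos (c * l ^ i)| ≤ 1) := fun c i => Real.abs_cos_le_one _
  have hab : ∀ i, |Real.cos (a * l ^ i) * Real.cos (b * l ^ i)| ≤ 1 := fun i => by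
    rw [abs_mul]; exact mul_le_one₀ (hd a i) (abs_nonneg _) (hd b i)
  rw [← Finset.prod_mul_distrib]
  have hp := abs_prod_sub_prod_le _ _ (hd (a + b)) hab M
  have hm := abs_prod_sub_prod_le _ _ (hd (a - b)) hab M
  have q : ∀ i, |Real.cos ((a + b) * l ^ i) - Real.cos (a * l ^ i) * Real.cos (b * l ^ i)|
      = |Real.sin (a * l ^ i)| * |Real.sin (b * l ^ i)| ∧
      |Real.cos ((a - b) * l ^ i) - Real.cos (a * l ^ i) * Real.cos (b * l ^ i)|
      = |Real.sin (a * l ^ i)| * |Real.sin (b * l ^ i)| := by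
    intro i
    rw [add_mul, sub_mul, Real.cos_add, Real.cos_sub, sub_sub_cancel_left, add_sub_cancel_left,
      abs_neg, abs_mul]
    exact ⟨rfl, rfl⟩
  simp only [(q _).1] at hp
  simp only [(q _).2] at hm
  set Xp := ∏ i ∈ Finset.range M, Real.cos ((a + b) * l ^ i)
  set Xm := ∏ i ∈ Finset.range M, Real.cos ((a - b) * l ^ i)
  set Y := ∏ i ∈ Finset.range M, Real.cos (a * l ^ i) * Real.cos (b * l ^ i)
  rw [show (Xp + Xm) / 2 - Y = ((Xp - Y) + (Xm - Y)) / 2 by ring, abs_div, abs_two]
  have := abs_add_le (Xp - Y) (Xm - Y)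
  have := hC M
  linarith

lemma abs_mean_ge {l : ℝ} (h0 : 0 ≤ l) (h1 : l < 1) {t c : ℝ}
    (hc : ∀ M, c ≤ |∏ i ∈ Finset.range M, Real.cos (t * l ^ i)|) :
    c ≤ |∫ e, Real.cos (t * seriesValue l e) ∂coinMeasure| :=
  ge_of_tendsto' (tendsto_integral_cos h0 h1 t).abs hc

end Vale.Agent.P105
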