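import Mathlib

/-!
# Definitions for Bernoulli convolutions
-/

open MeasureTheory

namespace Vale.Agent.P105

/-- A Pisot number: a real algebraic integer greater than one all of whose other conjugates have
modulus less than one. -/
def IsPisot (x : ℝ) : Prop :=
  1 < x ∧ IsIntegral ℤ x ∧
    ∀ z : ℂ, Polynomial.aeval z (minpoly ℚ x) = 0 → z ≠ (x : ℂ) → ‖z‖ < 1

/-- The value in the two point set of signs attached to a bit. -/
def signValue (b : Bool) : ℝ := if b then 1 else -1

/-- The law of a sequence of independent fair bits. -/
noncomputable def coinMeasure : Measure (ℕ → Bool) :=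
  Measure.infinitePi (fun _ : ℕ => (PMF.uniformOfFintype Bool).toMeasure)

/-- The unbiased Bernoulli convolution with parameter `l`. -/
noncomputable def bernoulliConvolution (l : ℝ) : Measure ℝ :=
  coinMeasure.map (fun e => ∑' n : ℕ, signValue (e n) * l ^ n)

end Vale.Agent.P105
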