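import Vale.Agent.P105.Sequence
import Vale.Agent.P105.Bernoulli

/-!
# First and second moments of the test sums
-/

namespace Vale.Agent.P105

open MeasureTheory Finset

noncomputable def freq (A : ℝ) (n : ℕ) : ℝ := Real.pi * (A * beta ^ (n : ℤ))

lemma lam_nonneg : (0 : ℝ) ≤ beta⁻¹ := inv_nonneg.mpr beta_pos.le

lemma lam_lt_one : beta⁻¹ < 1 := inv_lt_one_of_one_lt₀ beta_one_lt

lemma freq_mul (A : ℝ) (n i : ℕ) :
    freq A n * beta⁻¹ ^ i = Real.pi * (A * beta ^ ((n : ℤ) - i)) := by
  rw [freq, zpow_sub₀ beta_pos.ne', zpow_natCast, zpow_natCast, inv_pow]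
  ring

lemma sum_inv_pow_le (s : Finset ℕ) : ∑ i ∈ s, beta⁻¹ ^ i ≤ 3 := by
  refine ((summable_geometric_of_lt_one lam_nonneg lam_lt_one).sum_le_tsum s
    (fun i _ => pow_nonneg lam_nonneg i)).trans ?_
  rw [tsum_geometric_of_lt_one lam_nonneg lam_lt_one]
  have h : beta⁻¹ ≤ 2 / 3 := by
    rw [inv_le_comm₀ beta_pos (by norm_num)]; linarith [beta_gt]
  rw [inv_le_comm₀ (by linarith [lam_lt_one]) (by norm_num)]
  linarith

lemma tail_sum_le (K M : ℕ) :
    ∑ i ∈ Finset.range M with K < i, beta ^ ((K : ℤ) - i) ≤ 3 := by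
  have h := sum_inv_pow_le (((Finset.range M).filter (K < ·)).image (fun i => i - K))
  rw [Finset.sum_image ?_] at h
  · refine le_trans (le_of_eq (Finset.sum_congr rfl fun i hi => ?_)) h
    rw [Finset.mem_filter] at hi
    rw [inv_pow, ← zpow_natCast, ← zpow_neg]
    congr 1
    omega
  · intro a ha b hb hab
    simp only [Finset.coe_filter, Set.mem_setOf_eq] at ha hb
    simp only at hab
    omega

variable {A : ℝ} {z : ℂ} {H N : ℕ}

/-- The overlap of the factors of two far apart frequencies. -/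
lemma overlap_le (hG : Good A z H) (hs : ‖z‖ ≤ 1 / 2000) (hN : (N : ℝ) * ‖z‖ ≤ 1) {n m : ℕ}
    (hm : m ∈ Finset.Ioc (2 * H) (2 * H + N)) (hnm : m + 4 * H < n) (M : ℕ) :
    ∑ i ∈ Finset.range M,
        |Real.sin (freq A n * beta⁻¹ ^ i)| * |Real.sin (freq A m * beta⁻¹ ^ i)|
      ≤ 200 * ((4 * (H : ℝ) + 1) * ‖z‖) := by
  rw [Finset.mem_Ioc] at hm
  set s : ℝ := ‖z‖ with hs'
  have hs0 : 0 ≤ s := norm_nonneg _
  have hpt : ∀ i ∈ Finset.range M,
      |Real.sin (freq A n * beta⁻¹ ^ i)| * |Real.sin (freq A m * beta⁻¹ ^ i)|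
      ≤ (if m + 2 * H < i then 4 * s * beta ^ ((m + 2 * H : ℕ) - (i : ℤ)) else 0)
        + (if i ∈ Finset.Icc (m - 2 * H) (m + 2 * H) then 12 * s else 0)
        + (if i < m - 2 * H then 144 * s ^ 2 else 0) := by
    intro i _
    rw [freq_mul, freq_mul]
    rcases lt_trichotomy i (m - 2 * H) with h | h | h
    · rw [if_neg (by omega), if_neg (by rw [Finset.mem_Icc]; omega), if_pos h, zero_add, zero_add,
        show 144 * s ^ 2 = 12 * s * (12 * s) by ring]
      exact mul_le_mul (hG.right (by omega)) (hG.right (by omega)) (abs_nonneg _) (by linarith)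
    · rw [if_neg (by omega), if_pos (by rw [Finset.mem_Icc]; omega), if_neg (by omega), zero_add,
        add_zero]
      exact (mul_le_of_le_one_right (abs_nonneg _) (Real.abs_sin_le_one _)).trans
        (hG.right (by omega))
    · by_cases h2 : m + 2 * H < i
      · rw [if_pos h2, if_neg (by rw [Finset.mem_Icc]; omega), if_neg (by omega), add_zero,
          add_zero]
        refine (mul_le_of_le_one_left (abs_nonneg _) (Real.abs_sin_le_one _)).trans ?_
        refine (hG.left (by omega)).trans (le_of_eq ?_)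
        rw [← hs', mul_assoc]
        congr 3
        omega
      · rw [if_neg h2, if_pos (by rw [Finset.mem_Icc]; omega), if_neg (by omega), zero_add,
          add_zero]
        exact (mul_le_of_le_one_right (abs_nonneg _) (Real.abs_sin_le_one _)).trans
          (hG.right (by omega))
  refine (Finset.sum_le_sum hpt).trans ?_
  rw [Finset.sum_add_distrib, Finset.sum_add_distrib, ← Finset.sum_filter, ← Finset.sum_filter,
    ← Finset.sum_filter, ← Finset.mul_sum]
  simp only [Finset.sum_const, nsmul_eq_mul]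
  have b1 : 4 * s * ∑ i ∈ Finset.range M with m + 2 * H < i,
      beta ^ ((m + 2 * H : ℕ) - (i : ℤ)) ≤ 4 * s * 3 :=
    mul_le_mul_of_nonneg_left (tail_sum_le _ _) (by linarith)
  have b2 : (((Finset.range M).filter (· ∈ Finset.Icc (m - 2 * H) (m + 2 * H))).card : ℝ)
      ≤ 4 * (H : ℝ) + 1 := by
    have : ((Finset.range M).filter (· ∈ Finset.Icc (m - 2 * H) (m + 2 * H))).card
        ≤ 4 * H + 1 := by
      refine (Finset.card_le_card (t := Finset.Icc (m - 2 * H) (m + 2 * H)) ?_).trans ?_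
      · intro x hx; exact (Finset.mem_filter.mp hx).2
      · rw [Nat.card_Icc]; omega
    exact_mod_cast this
  have b3 : (((Finset.range M).filter (· < m - 2 * H)).card : ℝ) ≤ N := by
    have : ((Finset.range M).filter (· < m - 2 * H)).card ≤ N := by
      refine (Finset.card_le_card (t := Finset.range (m - 2 * H)) ?_).trans ?_
      · intro x hx; exact Finset.mem_range.mpr (Finset.mem_filter.mp hx).2
      · rw [Finset.card_range]; omega
    exact_mod_cast this
  have c2 := mul_le_mul_of_nonneg_right b2 (show 0 ≤ 12 * s by linarith)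
  have c3 := mul_le_mul_of_nonneg_right b3 (show 0 ≤ 144 * s ^ 2 by positivity)
  have c4 : (N : ℝ) * (144 * s ^ 2) ≤ 144 * s := by nlinarith
  have c5 : (0 : ℝ) ≤ (H : ℝ) * s := by positivity
  linarith

/-- The expectation at a frequency of a state is comparable with the product over the window. -/
lemma mean_ge (hG : Good A z H) (hs : ‖z‖ ≤ 1 / 2000) (hN : (N : ℝ) * ‖z‖ ≤ 1) {n : ℕ}
    (hn : n ∈ Finset.Ioc (2 * H) (2 * H + N)) :
    prodP A H / 2 ≤ |∫ e, Real.cos (freq A n * seriesValue beta⁻¹ e) ∂coinMeasure| := by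
  rw [Finset.mem_Ioc] at hn
  refine abs_mean_ge lam_nonneg lam_lt_one fun M => ?_
  set s : ℝ := ‖z‖ with hs'
  have hs0 : 0 ≤ s := norm_nonneg _
  simp only [freq_mul, Finset.abs_prod]
  rw [← Finset.prod_filter_mul_prod_filter_not (Finset.range M)
    (fun i : ℕ => (n : ℤ) - i ∈ win H)]
  have h1 : prodP A H ≤ ∏ i ∈ (Finset.range M).filter (fun i : ℕ => (n : ℤ) - i ∈ win H),
      |Real.cos (Real.pi * (A * beta ^ ((n : ℤ) - i)))| := by
    have e := Finset.prod_image (f := cfac A)
      (s := (Finset.range M).filter (fun i : ℕ => (n : ℤ) - i ∈ win H))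
      (g := fun i : ℕ => (n : ℤ) - i) (by intro a _ b _ hab; simp only at hab; omega)
    refine le_trans ?_ (le_of_eq e)
    refine Finset.prod_le_prod_of_subset_of_le_one ?_ (fun i _ => cfac_nonneg A i)
      (fun i _ _ => cfac_le_one A i)
    intro i hi
    obtain ⟨a, ha, rfl⟩ := Finset.mem_image.mp hi
    exact (Finset.mem_filter.mp ha).2
  set d : ℕ → ℝ := fun i =>
    (if n + 2 * H < i then 32 * s ^ 2 * beta ^ ((n + 2 * H : ℕ) - (i : ℤ)) else 0)
      + (if i < n - 2 * H then 288 * s ^ 2 else 0) with hd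
  have h2 : ∀ i ∈ (Finset.range M).filter (fun i : ℕ => ¬ ((n : ℤ) - i ∈ win H)),
      Real.exp (-d i) ≤ |Real.cos (Real.pi * (A * beta ^ ((n : ℤ) - i)))| := by
    intro i hi
    have hi2 := (Finset.mem_filter.mp hi).2
    rw [win, Finset.mem_Icc] at hi2
    have hs2 : (12 * s) ^ 2 ≤ 1 / 2 := by nlinarith
    by_cases h : n + 2 * H < i
    · simp only [hd, if_pos h, if_neg (show ¬ i < n - 2 * H by omega), add_zero]
      have hsin := hG.left (i := (n : ℤ) - i) (by omega)
      set β' : ℝ := beta ^ ((n : ℤ) - i + 2 * (H : ℤ)) with hβ'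
      have hb0 : 0 ≤ β' := (zpow_pos beta_pos _).le
      have hb1 : β' ≤ 1 := zpow_le_one_of_nonpos₀ beta_one_lt.le (by omega)
      have he : ((n + 2 * H : ℕ) : ℤ) - (i : ℤ) = (n : ℤ) - i + 2 * (H : ℤ) := by omega
      rw [he, ← hβ']
      have hsq : (4 * (s * β')) ^ 2 ≤ 16 * s ^ 2 * β' := by
        rw [show (4 * (s * β')) ^ 2 = 16 * s ^ 2 * β' * β' by ring]
        exact mul_le_of_le_one_right (by positivity) hb1
      have hhalf : (4 * (s * β')) ^ 2 ≤ 1 / 2 := by nlinarith
      refine le_trans ?_ (abs_cos_ge_of_abs_sin_le hsin hhalf)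
      exact Real.exp_le_exp.mpr (by linarith)
    · simp only [hd, if_neg h, if_pos (show i < n - 2 * H by omega), zero_add]
      refine le_trans ?_ (abs_cos_ge_of_abs_sin_le (hG.right (by omega)) hs2)
      exact Real.exp_le_exp.mpr (le_of_eq (by ring))
  have h3 := Finset.prod_le_prod (fun i _ => (Real.exp_pos _).le) h2
  rw [← Real.exp_sum, Finset.sum_neg_distrib] at h3
  have hd0 : ∀ i, 0 ≤ d i := by
    intro i
    have : 0 ≤ beta ^ (((n + 2 * H : ℕ) : ℤ) - (i : ℤ)) := (zpow_pos beta_pos _).le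
    simp only [hd]
    split_ifs <;> positivity
  have h4 : ∑ i ∈ (Finset.range M).filter (fun i : ℕ => ¬ ((n : ℤ) - i ∈ win H)), d i
      ≤ 400 * s := by
    refine (Finset.sum_le_sum_of_subset_of_nonneg (Finset.filter_subset _ _)
      fun i _ _ => hd0 i).trans ?_
    simp only [hd]
    rw [Finset.sum_add_distrib, ← Finset.sum_filter, ← Finset.sum_filter, ← Finset.mul_sum]
    simp only [Finset.sum_const, nsmul_eq_mul]
    have b1 : 32 * s ^ 2 * ∑ i ∈ Finset.range M with n + 2 * H < i,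
        beta ^ ((n + 2 * H : ℕ) - (i : ℤ)) ≤ 32 * s ^ 2 * 3 :=
      mul_le_mul_of_nonneg_left (tail_sum_le _ _) (by positivity)
    have b3 : (((Finset.range M).filter (· < n - 2 * H)).card : ℝ) ≤ N := by
      have : ((Finset.range M).filter (· < n - 2 * H)).card ≤ N := by
        refine (Finset.card_le_card (t := Finset.range (n - 2 * H)) ?_).trans ?_
        · intro x hx; exact Finset.mem_range.mpr (Finset.mem_filter.mp hx).2
        · rw [Finset.card_range]; omega
      exact_mod_cast this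
    have c3 := mul_le_mul_of_nonneg_right b3 (show 0 ≤ 288 * s ^ 2 by positivity)
    have c4 : (N : ℝ) * (288 * s ^ 2) ≤ 288 * s := by nlinarith
    have c5 : s ^ 2 ≤ s / 2000 := by nlinarith
    linarith
  have h5 : (1 / 2 : ℝ) ≤ ∏ i ∈ (Finset.range M).filter (fun i : ℕ => ¬ ((n : ℤ) - i ∈ win H)),
      |Real.cos (Real.pi * (A * beta ^ ((n : ℤ) - i)))| := by
    refine le_trans ?_ h3
    have := Real.add_one_le_exp (-∑ i ∈ (Finset.range M).filter
      (fun i : ℕ => ¬ ((n : ℤ) - i ∈ win H)), d i)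
    linarith
  rw [div_eq_mul_one_div]
  exact mul_le_mul h1 h5 (by norm_num) (Finset.prod_nonneg fun i _ => abs_nonneg _)

lemma abs_integral_cos_le (t : ℝ) :
    |∫ e, Real.cos (t * seriesValue beta⁻¹ e) ∂coinMeasure| ≤ 1 := by
  rw [← Real.norm_eq_abs]
  refine (norm_integral_le_of_norm_le_const (C := 1) (ae_of_all _ fun e => ?_)).trans ?_
  · rw [Real.norm_eq_abs]; exact Real.abs_cos_le_one _
  · simp

noncomputable def covar (A : ℝ) (n m : ℕ) : ℝ :=
  (∫ e, Real.cos (freq A n * seriesValue beta⁻¹ e)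
      * Real.cos (freq A m * seriesValue beta⁻¹ e) ∂coinMeasure)
    - (∫ e, Real.cos (freq A n * seriesValue beta⁻¹ e) ∂coinMeasure)
      * ∫ e, Real.cos (freq A m * seriesValue beta⁻¹ e) ∂coinMeasure

lemma covar_comm (n m : ℕ) : covar A n m = covar A m n := by
  unfold covar
  rw [mul_comm (∫ e, Real.cos (freq A n * seriesValue beta⁻¹ e) ∂coinMeasure)]
  congr 2
  funext e
  ring

lemma covar_le_two (n m : ℕ) : |covar A n m| ≤ 2 := by
  unfold covar
  refine (abs_sub _ _).trans ?_
  have h1 : |∫ e, Real.cos (freq A n * seriesValue beta⁻¹ e)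
      * Real.cos (freq A m * seriesValue beta⁻¹ e) ∂coinMeasure| ≤ 1 := by
    rw [← Real.norm_eq_abs]
    refine (norm_integral_le_of_norm_le_const (C := 1) (ae_of_all _ fun e => ?_)).trans ?_
    · rw [Real.norm_eq_abs, abs_mul]
      exact mul_le_one₀ (Real.abs_cos_le_one _) (abs_nonneg _) (Real.abs_cos_le_one _)
    · simp
  have h2 := mul_le_one₀ (abs_integral_cos_le (freq A n)) (abs_nonneg _)
    (abs_integral_cos_le (freq A m))
  rw [← abs_mul] at h2
  linarith

lemma covar_sum_le (hG : Good A z H) (hs : ‖z‖ ≤ 1 / 2000) (hN : (N : ℝ) * ‖z‖ ≤ 1)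
    (hN2 : 1 ≤ 2 * ((N : ℝ) * ‖z‖)) :
    ∑ n ∈ Finset.Ioc (2 * H) (2 * H + N), ∑ m ∈ Finset.Ioc (2 * H) (2 * H + N), |covar A n m|
      ≤ (N : ℝ) ^ 2 * (220 * ((4 * (H : ℝ) + 1) * ‖z‖)) := by
  set w : ℝ := (4 * (H : ℝ) + 1) * ‖z‖ with hw
  have hw0 : 0 ≤ w := by positivity
  set I := Finset.Ioc (2 * H) (2 * H + N) with hI
  have hcard : (I.card : ℝ) = N := by rw [hI, Nat.card_Ioc]; simp
  have hrow : ∀ n ∈ I, ∑ m ∈ I, |covar A n m| ≤ (N : ℝ) * (220 * w) := by
    intro n hn
    have hpt : ∀ m ∈ I, |covar A n m| ≤ 200 * w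
        + (if m ∈ Finset.Icc (n - 4 * H) (n + 4 * H) then 2 else 0) := by
      intro m hm
      by_cases h : m ∈ Finset.Icc (n - 4 * H) (n + 4 * H)
      · rw [if_pos h]; linarith [covar_le_two (A := A) n m]
      · rw [if_neg h, add_zero]
        rw [Finset.mem_Icc] at h
        by_cases h' : m + 4 * H < n
        · exact cov_le lam_nonneg lam_lt_one (overlap_le hG hs hN hm h')
        · rw [covar_comm]
          exact cov_le lam_nonneg lam_lt_one (overlap_le hG hs hN hn (by omega))
    refine (Finset.sum_le_sum hpt).trans ?_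
    rw [Finset.sum_add_distrib, ← Finset.sum_filter, Finset.sum_const, Finset.sum_const,
      nsmul_eq_mul, nsmul_eq_mul, hcard]
    have hc : ((I.filter (· ∈ Finset.Icc (n - 4 * H) (n + 4 * H))).card : ℝ)
        ≤ 2 * (4 * (H : ℝ) + 1) := by
      have : (I.filter (· ∈ Finset.Icc (n - 4 * H) (n + 4 * H))).card ≤ 2 * (4 * H + 1) := by
        refine (Finset.card_le_card (t := Finset.Icc (n - 4 * H) (n + 4 * H)) ?_).trans ?_
        · intro x hx; exact (Finset.mem_filter.mp hx).2
        · rw [Nat.card_Icc]; omega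
      exact_mod_cast this
    have hH : 2 * (4 * (H : ℝ) + 1) ≤ 4 * ((N : ℝ) * w) := by
      rw [hw]
      have h0 : 0 ≤ 4 * (H : ℝ) + 1 := by positivity
      have := mul_le_mul_of_nonneg_left hN2 h0
      linarith
    have : 0 ≤ (N : ℝ) * w := by positivity
    linarith
  refine (Finset.sum_le_sum hrow).trans (le_of_eq ?_)
  rw [Finset.sum_const, nsmul_eq_mul, hcard]
  ring

end Vale.Agent.P105
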