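import Vale.Agent.P105.Defs

/-!
# The quartic Salem number x^4 - x^3 - x^2 - x + 1
-/

namespace Vale.Agent.P105

open Polynomial

noncomputable def r13 : ℝ := Real.sqrt 13

noncomputable def y1 : ℝ := (1 + r13) / 2

noncomputable def y2 : ℝ := (1 - r13) / 2

noncomputable def gr : ℝ := Real.sqrt ((r13 - 1) / 2)

noncomputable def beta : ℝ := (y1 + gr) / 2

noncomputable def wc : ℂ := ⟨y2 / 2, Real.sqrt y1 / 2⟩

lemma r13_sq : r13 ^ 2 = 13 := Real.sq_sqrt (by norm_num)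

lemma r13_gt : (3.6 : ℝ) < r13 := by
  rw [r13, Real.lt_sqrt (by norm_num)]; norm_num

lemma r13_lt : r13 < (3.61 : ℝ) := by
  rw [r13, Real.sqrt_lt' (by norm_num)]; norm_num

lemma r13_irrational : Irrational r13 := by
  have h : Nat.Prime 13 := by norm_num
  simpa [r13] using h.irrational_sqrt

lemma rat_lin_zero {a b : ℚ} (h : (a : ℝ) + b * r13 = 0) : a = 0 ∧ b = 0 := by
  have hb : b = 0 := by
    by_contra hb
    refine r13_irrational ⟨-a / b, ?_⟩
    have : (b : ℝ) ≠ 0 := by exact_mod_cast hb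
    push_cast
    field_simp
    linarith
  subst hb
  simp at h
  exact ⟨h, rfl⟩

lemma gr_sq : gr ^ 2 = (r13 - 1) / 2 := Real.sq_sqrt (by linarith [r13_gt])

lemma gr_gt : (1.14 : ℝ) < gr := by
  rw [gr, Real.lt_sqrt (by norm_num)]; linarith [r13_gt]

lemma gr_lt : gr < (1.15 : ℝ) := by
  rw [gr, Real.sqrt_lt' (by norm_num)]; linarith [r13_lt]

lemma beta_gt : (17 / 10 : ℝ) < beta := by
  unfold beta y1; linarith [r13_gt, gr_gt]

lemma beta_lt : beta < (9 / 5 : ℝ) := by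
  unfold beta y1; linarith [r13_lt, gr_lt]

lemma beta_pos : 0 < beta := by linarith [beta_gt]

lemma beta_one_lt : 1 < beta := by linarith [beta_gt]

lemma beta_sq : beta ^ 2 = y1 * beta - 1 := by
  unfold beta y1
  linear_combination (1 / 4 : ℝ) * gr_sq - (1 / 16 : ℝ) * r13_sq

lemma beta_inv : beta⁻¹ = y1 - beta := by
  apply inv_eq_of_mul_eq_one_right
  linear_combination -beta_sq

lemma y1_sq : y1 ^ 2 = y1 + 3 := by
  unfold y1; linear_combination (1 / 4 : ℝ) * r13_sq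

lemma y2_sq : y2 ^ 2 = y2 + 3 := by
  unfold y2; linear_combination (1 / 4 : ℝ) * r13_sq

lemma y1_pos : 0 < y1 := by unfold y1; linarith [r13_gt]

lemma y_add : y1 + y2 = 1 := by unfold y1 y2; ring

lemma wc_normSq : Complex.normSq wc = 1 := by
  rw [Complex.normSq_apply]
  show y2 / 2 * (y2 / 2) + Real.sqrt y1 / 2 * (Real.sqrt y1 / 2) = 1
  linear_combination (1 / 4 : ℝ) * y2_sq + (1 / 4 : ℝ) * Real.sq_sqrt y1_pos.le
    + (1 / 4 : ℝ) * y_add

lemma wc_norm : ‖wc‖ = 1 := by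
  rw [Complex.norm_def, wc_normSq, Real.sqrt_one]

lemma wc_ne : wc ≠ 0 := by
  intro h; simpa [h] using wc_norm

lemma wc_inv : wc⁻¹ = (starRingEnd ℂ) wc := by
  rw [Complex.inv_def, wc_normSq]; simp

lemma wc_add_inv : wc + wc⁻¹ = (y2 : ℂ) := by
  rw [wc_inv, Complex.add_conj]
  simp [wc]
  ring

lemma wc_sq : wc ^ 2 = (y2 : ℂ) * wc - 1 := by
  rw [← wc_add_inv, add_mul, inv_mul_cancel₀ wc_ne]; ring

/-- A real and a complex number which correspond under the embedding sending beta to wc. -/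
def Pair (x : ℝ) (v : ℂ) : Prop :=
  ∃ a b c d : ℚ, x = ((a : ℝ) + b * r13) + ((c : ℝ) + d * r13) * beta ∧
    v = ((a : ℂ) - b * (r13 : ℂ)) + ((c : ℂ) - d * (r13 : ℂ)) * wc

lemma pair_aeval (p : ℚ[X]) : Pair (aeval beta p) (aeval wc p) := by
  induction p using Polynomial.induction_on with
  | C a => exact ⟨a, 0, 0, 0, by simp, by simp⟩
  | add p q hp hq =>
    obtain ⟨a, b, c, d, h1, h2⟩ := hp
    obtain ⟨a', b', c', d', h1', h2'⟩ := hq
    refine ⟨a + a', b + b', c + c', d + d', ?_, ?_⟩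
    · rw [map_add, h1, h1']; push_cast; ring
    · rw [map_add, h2, h2']; push_cast; ring
  | monomial n a hp =>
    obtain ⟨a', b, c, d, h1, h2⟩ := hp
    rw [pow_succ, ← mul_assoc]
    refine ⟨-c, -d, a' + c / 2 + 13 * d / 2, b + c / 2 + d / 2, ?_, ?_⟩
    · rw [map_mul, h1, aeval_X]
      push_cast
      have e : beta * beta = ((1 + r13) / 2) * beta - 1 := by
        have := beta_sq; unfold y1 at this; linear_combination this
      linear_combination ((c : ℝ) + d * r13) * e + ((d : ℝ) * beta / 2) * r13_sq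
    · rw [map_mul, h2, aeval_X]
      push_cast
      have hr : (r13 : ℂ) ^ 2 = 13 := by
        rw [← Complex.ofReal_pow, r13_sq]; norm_num
      have e : wc * wc = ((1 - (r13 : ℂ)) / 2) * wc - 1 := by
        have := wc_sq; unfold y2 at this; push_cast at this; linear_combination this
      linear_combination ((c : ℂ) - d * (r13 : ℂ)) * e + ((d : ℂ) * wc / 2) * hr

lemma coord_zero {a b c d : ℚ}
    (h : ((a : ℝ) + b * r13) + ((c : ℝ) + d * r13) * beta = 0) :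
    a = 0 ∧ b = 0 ∧ c = 0 ∧ d = 0 := by
  have hcd : c = 0 ∧ d = 0 := by
    -- conjugate the identity expressing that (r13 - 1) / 2 would be a square
    set e : ℚ := -2 * a - c / 2 - 13 * d / 2 with he
    set f : ℚ := -2 * b - c / 2 - d / 2 with hf
    have hg : ((c : ℝ) + d * r13) * gr = (e : ℝ) + f * r13 := by
      have := h; unfold beta y1 at this
      rw [he, hf]; push_cast
      linear_combination 2 * this - ((d : ℝ) / 2) * r13_sq
    set U : ℚ := -(c ^ 2 + 13 * d ^ 2) / 2 + 13 * c * d - e ^ 2 - 13 * f ^ 2 with hU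
    set V : ℚ := (c ^ 2 + 13 * d ^ 2) / 2 - c * d - 2 * e * f with hV
    have h1 : (U : ℝ) + V * r13 = 0 := by
      rw [hU, hV]; push_cast
      linear_combination (((c : ℝ) + d * r13) * gr + ((e : ℝ) + f * r13)) * hg
        - ((c : ℝ) + d * r13) ^ 2 * gr_sq
        - ((r13 - 1) / 2 * (d : ℝ) ^ 2 + (c : ℝ) * d - (f : ℝ) ^ 2) * r13_sq
    obtain ⟨hU0, hV0⟩ := rat_lin_zero h1
    have hUr : (U : ℝ) = 0 := by exact_mod_cast hU0
    have hVr : (V : ℝ) = 0 := by exact_mod_cast hV0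
    have h2 : ((c : ℝ) - d * r13) ^ 2 * (r13 + 1) / 2 + ((e : ℝ) - f * r13) ^ 2 = 0 := by
      rw [hU] at hUr; rw [hV] at hVr
      push_cast at hUr hVr
      linear_combination -hUr + r13 * hVr
        + ((r13 + 1) / 2 * (d : ℝ) ^ 2 - (c : ℝ) * d + (f : ℝ) ^ 2) * r13_sq
    have h3 : ((c : ℝ) - d * r13) ^ 2 = 0 := by
      have hp : 0 < (r13 + 1) / 2 := by linarith [r13_gt]
      nlinarith [sq_nonneg ((e : ℝ) - f * r13), sq_nonneg ((c : ℝ) - d * r13)]
    have h4 : ((c : ℚ) : ℝ) + ((-d : ℚ) : ℝ) * r13 = 0 := by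
      have := pow_eq_zero_iff (two_ne_zero) |>.mp h3
      push_cast; linarith
    obtain ⟨h5, h6⟩ := rat_lin_zero h4
    exact ⟨h5, neg_eq_zero.mp h6⟩
  obtain ⟨rfl, rfl⟩ := hcd
  simp at h
  obtain ⟨h1, h2⟩ := rat_lin_zero h
  exact ⟨h1, h2, rfl, rfl⟩

lemma aeval_wc_eq_zero {p : ℚ[X]} (h : aeval beta p = 0) : aeval wc p = 0 := by
  obtain ⟨a, b, c, d, h1, h2⟩ := pair_aeval p
  rw [h] at h1
  obtain ⟨rfl, rfl, rfl, rfl⟩ := coord_zero h1.symm
  simpa using h2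

lemma beta_integral : IsIntegral ℤ beta := by
  refine ⟨X ^ 4 - X ^ 3 - X ^ 2 - X + 1, by monicity!, ?_⟩
  simp only [eval₂_add, eval₂_sub, eval₂_X_pow, eval₂_X, eval₂_one]
  linear_combination (beta ^ 2 + (y1 - 1) * beta + 1) * beta_sq + beta ^ 2 * y1_sq

lemma not_isPisot_beta : ¬ IsPisot beta := by
  rintro ⟨-, -, h⟩
  have h0 : aeval wc (minpoly ℚ beta) = 0 := aeval_wc_eq_zero (minpoly.aeval ℚ beta)
  have hne : wc ≠ (beta : ℂ) := by
    intro hc
    have := wc_norm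
    rw [hc, Complex.norm_real, Real.norm_eq_abs, abs_of_pos beta_pos] at this
    linarith [beta_one_lt]
  have := h wc h0 hne
  rw [wc_norm] at this
  exact lt_irrefl 1 this

/-- Traces of powers. -/
lemma lucas (n : ℕ) : (∃ a b : ℤ, beta ^ n + beta⁻¹ ^ n = a + b * y1 ∧
      wc ^ n + wc⁻¹ ^ n = (((a : ℝ) + b * y2 : ℝ) : ℂ)) ∧
    (∃ a b : ℤ, beta ^ (n + 1) + beta⁻¹ ^ (n + 1) = a + b * y1 ∧
      wc ^ (n + 1) + wc⁻¹ ^ (n + 1) = (((a : ℝ) + b * y2 : ℝ) : ℂ)) := by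
  induction n with
  | zero =>
    refine ⟨⟨2, 0, by norm_num, by norm_num⟩, ⟨0, 1, ?_, ?_⟩⟩
    · rw [zero_add, pow_one, pow_one, beta_inv]; push_cast; ring
    · rw [zero_add, pow_one, pow_one, wc_add_inv]; push_cast; ring
  | succ n ih =>
    refine ⟨ih.2, ?_⟩
    obtain ⟨⟨a, b, h1, h2⟩, ⟨a', b', h1', h2'⟩⟩ := ih
    refine ⟨3 * b' - a, a' + b' - b, ?_, ?_⟩
    · have e : beta + beta⁻¹ = y1 := by rw [beta_inv]; ring
      have q : beta ^ (n + 1 + 1) + beta⁻¹ ^ (n + 1 + 1)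
          = (beta + beta⁻¹) * (beta ^ (n + 1) + beta⁻¹ ^ (n + 1))
            - (beta * beta⁻¹) * (beta ^ n + beta⁻¹ ^ n) := by ring
      rw [q, e, h1, h1', mul_inv_cancel₀ beta_pos.ne']
      push_cast
      linear_combination (b' : ℝ) * y1_sq
    · have q : wc ^ (n + 1 + 1) + wc⁻¹ ^ (n + 1 + 1)
          = (wc + wc⁻¹) * (wc ^ (n + 1) + wc⁻¹ ^ (n + 1))
            - (wc * wc⁻¹) * (wc ^ n + wc⁻¹ ^ n) := by ring
      rw [q, wc_add_inv, h2, h2', mul_inv_cancel₀ wc_ne]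
      have hy : (y2 : ℂ) ^ 2 = (y2 : ℂ) + 3 := by
        rw [← Complex.ofReal_pow, y2_sq]; push_cast; ring
      push_cast
      linear_combination (b' : ℂ) * hy

lemma wc_inv_pow_re (n : ℕ) : (wc⁻¹ ^ n).re = (wc ^ n).re := by
  rw [wc_inv, ← map_pow, Complex.conj_re]

/-- The base integer sequence. -/
lemma base_int (i : ℤ) :
    ∃ x : ℤ, beta ^ i + beta ^ (-i) + 2 * (wc ^ i).re = (x : ℝ) := by
  obtain ⟨n, rfl | rfl⟩ := i.eq_nat_or_neg
  · obtain ⟨⟨a, b, h1, h2⟩, -⟩ := lucas n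
    refine ⟨2 * a + b, ?_⟩
    have h3 := congrArg Complex.re h2
    rw [Complex.add_re, wc_inv_pow_re, Complex.ofReal_re] at h3
    rw [inv_pow] at h1
    simp only [zpow_neg, zpow_natCast]
    push_cast
    linear_combination h1 + h3 + (b : ℝ) * y_add
  · obtain ⟨⟨a, b, h1, h2⟩, -⟩ := lucas n
    refine ⟨2 * a + b, ?_⟩
    have h3 := congrArg Complex.re h2
    rw [Complex.add_re, wc_inv_pow_re, Complex.ofReal_re] at h3
    have h4 := wc_inv_pow_re n
    rw [inv_pow] at h1 h4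
    simp only [neg_neg, zpow_neg, zpow_natCast]
    push_cast
    linear_combination h1 + h3 + (b : ℝ) * y_add + 2 * h4

/-- The real multiplier attached to a step. -/
noncomputable def dq (h : ℕ) : ℝ := beta ^ (h : ℤ) - beta ^ (-(h : ℤ))

/-- The complex multiplier attached to a step. -/
noncomputable def eq' (h : ℕ) : ℂ := wc ^ (h : ℤ) - wc ^ (-(h : ℤ))

lemma beta_inv_pow_lt_one {h : ℕ} (hh : 1 ≤ h) : beta⁻¹ ^ h < 1 :=
  pow_lt_one₀ (inv_nonneg.mpr beta_pos.le) (inv_lt_one_of_one_lt₀ beta_one_lt) (by omega)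

lemma dq_ge_one {h : ℕ} (hh : 1 ≤ h) : 1 ≤ dq h := by
  have h1 : beta ^ (1 : ℕ) ≤ beta ^ h := pow_le_pow_right₀ beta_one_lt.le hh
  have h2 : beta⁻¹ ^ h ≤ beta⁻¹ ^ (1 : ℕ) :=
    pow_le_pow_of_le_one (inv_nonneg.mpr beta_pos.le) (inv_le_one_of_one_le₀ beta_one_lt.le) hh
  rw [pow_one] at h1 h2
  rw [beta_inv] at h2
  simp only [dq, zpow_neg, zpow_natCast, ← inv_pow, beta_inv]
  have : (1 : ℝ) ≤ 2 * beta - y1 := by
    unfold beta; linarith [gr_gt]
  linarith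

lemma dq_le (h : ℕ) : dq h ≤ beta ^ (h : ℤ) := by
  have : 0 < beta ^ (-(h : ℤ)) := zpow_pos beta_pos _
  unfold dq; linarith

/-- The norm inequality. -/
lemma norm_bound {h : ℕ} (hh : 1 ≤ h) : 1 ≤ dq h * ‖eq' h‖ := by
  obtain ⟨⟨a, b, h1, h2⟩, -⟩ := lucas h
  have hd : dq h = beta ^ h - beta⁻¹ ^ h := by simp [dq, zpow_neg, ← inv_pow]
  have he : eq' h = wc ^ h - wc⁻¹ ^ h := by simp [eq', zpow_neg, ← inv_pow]
  set c : ℤ := a ^ 2 + 3 * b ^ 2 - 4 with hc
  set d : ℤ := 2 * a * b + b ^ 2 with hdd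
  have k1 : dq h ^ 2 = (c : ℝ) + d * y1 := by
    have hm : beta ^ h * beta⁻¹ ^ h = 1 := by
      rw [← mul_pow, mul_inv_cancel₀ beta_pos.ne', one_pow]
    rw [hd, hc, hdd]; push_cast
    linear_combination (beta ^ h + beta⁻¹ ^ h + ((a : ℝ) + b * y1)) * h1 - 4 * hm
      + (b : ℝ) ^ 2 * y1_sq
  have k2 : eq' h ^ 2 = (((c : ℝ) + d * y2 : ℝ) : ℂ) := by
    have hm : wc ^ h * wc⁻¹ ^ h = 1 := by
      rw [← mul_pow, mul_inv_cancel₀ wc_ne, one_pow]
    have hy : (y2 : ℂ) ^ 2 = (y2 : ℂ) + 3 := by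
      rw [← Complex.ofReal_pow, y2_sq]; push_cast; ring
    rw [he, hc, hdd]; push_cast at h2 ⊢
    linear_combination (wc ^ h + wc⁻¹ ^ h + ((a : ℂ) + b * (y2 : ℂ))) * h2 - 4 * hm
      + (b : ℂ) ^ 2 * hy
  have k3 : (dq h * ‖eq' h‖) ^ 2 = |(((c ^ 2 + c * d - 3 * d ^ 2 : ℤ)) : ℝ)| := by
    rw [mul_pow, ← norm_pow, k2, Complex.norm_real, Real.norm_eq_abs, ← abs_of_nonneg (sq_nonneg (dq h)),
      ← abs_mul, k1]
    congr 1
    push_cast
    unfold y1 y2
    linear_combination -(1 / 4 : ℝ) * (d : ℝ) ^ 2 * r13_sq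
  have k4 : c ^ 2 + c * d - 3 * d ^ 2 ≠ 0 := by
    intro hz
    have h13 : ((2 * c + d : ℤ) : ℝ) ^ 2 = (r13 * d) ^ 2 := by
      rw [mul_pow, r13_sq]
      have : (2 * c + d) ^ 2 = 13 * d ^ 2 := by linear_combination 4 * hz
      exact_mod_cast this
    have hd0 : d = 0 := by
      rcases sq_eq_sq_iff_eq_or_eq_neg.mp h13 with e | e
      · have := (rat_lin_zero (a := ((2 * c + d : ℤ) : ℚ)) (b := -(d : ℚ))
          (by push_cast at e ⊢; linarith)).2
        simpa using this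
      · have := (rat_lin_zero (a := ((2 * c + d : ℤ) : ℚ)) (b := (d : ℚ))
          (by push_cast at e ⊢; linarith)).2
        simpa using this
    have hc0 : c = 0 := by
      have : c ^ 2 = 0 := by simpa [hd0] using hz
      exact pow_eq_zero_iff (two_ne_zero) |>.mp this
    rw [hc0, hd0] at k1
    have := dq_ge_one hh
    simp at k1
    linarith
  have k5 : (1 : ℝ) ≤ (dq h * ‖eq' h‖) ^ 2 := by
    rw [k3, ← Int.cast_abs]
    exact_mod_cast Int.one_le_abs k4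
  have k6 : 0 ≤ dq h * ‖eq' h‖ := mul_nonneg (by linarith [dq_ge_one hh]) (norm_nonneg _)
  nlinarith

lemma eq'_pos {h : ℕ} (hh : 1 ≤ h) : 0 < ‖eq' h‖ := by
  rcases (norm_nonneg (eq' h)).lt_or_eq with e | e
  · exact e
  · have := norm_bound hh; rw [← e, mul_zero] at this; linarith

lemma eq'_ge {h : ℕ} (hh : 1 ≤ h) : beta ^ (-(h : ℤ)) ≤ ‖eq' h‖ := by
  have h1 := norm_bound hh
  have h2 : dq h * ‖eq' h‖ ≤ beta ^ (h : ℤ) * ‖eq' h‖ :=
    mul_le_mul_of_nonneg_right (dq_le h) (norm_nonneg _)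
  rw [zpow_neg, inv_le_iff_one_le_mul₀ (zpow_pos beta_pos _)]
  linarith

/-- A dilation of a single step is never a half integer if the complex part is small. -/
lemma cos_base_ne_zero {h : ℕ} (hs : ‖eq' h‖ < 1 / 2) (i : ℤ) :
    Real.cos (Real.pi * (dq h * beta ^ i)) ≠ 0 := by
  intro hcos
  obtain ⟨k, hk⟩ := Real.cos_eq_zero_iff.mp hcos
  set q : ℚ := (2 * (k : ℚ) + 1) / 2 with hq
  have hx : dq h * beta ^ i = (q : ℝ) := by
    have hp := Real.pi_pos
    have : Real.pi * (dq h * beta ^ i) = Real.pi * (q : ℝ) := by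
      rw [hk, hq]; push_cast; ring
    exact mul_left_cancel₀ hp.ne' this
  set n : ℕ := i.natAbs + h with hn
  obtain ⟨j1, hj1⟩ : ∃ j : ℕ, (j : ℤ) = i + h + n := ⟨(i + h + n).toNat, by omega⟩
  obtain ⟨j2, hj2⟩ : ∃ j : ℕ, (j : ℤ) = i - h + n := ⟨(i - h + n).toNat, by omega⟩
  set p : ℚ[X] := X ^ j1 - X ^ j2 - C q * X ^ n with hp
  have hb : beta ^ (i + h + n) - beta ^ (i - h + n)
      = (q : ℝ) * beta ^ (n : ℤ) := by
    rw [← hx, dq]
    simp only [sub_eq_add_neg, zpow_add₀ beta_pos.ne']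
    ring
  have h0 : aeval beta p = 0 := by
    rw [← hj1, ← hj2, zpow_natCast, zpow_natCast, zpow_natCast] at hb
    simp [hp, hb]
  have h1 : wc ^ j1 - wc ^ j2 = (q : ℂ) * wc ^ n := by
    have := aeval_wc_eq_zero h0
    simp [hp] at this
    linear_combination this
  have h2 : eq' h * wc ^ i * wc ^ (n : ℤ) = (q : ℂ) * wc ^ (n : ℤ) := by
    rw [zpow_natCast, ← h1, ← zpow_natCast wc j1, ← zpow_natCast wc j2, hj1, hj2, eq',
      ← zpow_natCast wc n]
    simp only [sub_eq_add_neg, zpow_add₀ wc_ne]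
    ring
  have h3 : eq' h * wc ^ i = (q : ℂ) := mul_right_cancel₀ (zpow_ne_zero _ wc_ne) h2
  have h4 : ‖eq' h‖ = |(q : ℝ)| := by
    have := congrArg norm h3
    rw [norm_mul, norm_zpow, wc_norm, one_zpow, mul_one] at this
    rw [this, ← Complex.ofReal_ratCast, Complex.norm_real, Real.norm_eq_abs]
  have h5 : (1 / 2 : ℝ) ≤ |(q : ℝ)| := by
    rw [hq]; push_cast
    rcases le_or_gt 0 k with hk0 | hk0
    · have : (0 : ℝ) ≤ k := by exact_mod_cast hk0
      exact le_abs.mpr (Or.inl (by linarith))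
    · have : (k : ℝ) ≤ -1 := by exact_mod_cast (show k ≤ -1 by omega)
      exact le_abs.mpr (Or.inr (by linarith))
  linarith

end Vale.Agent.P105
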