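import Vale.Agent.P105.States

/-!
# Existence of states with tiny defect compared with the cosine product
-/

namespace Vale.Agent.P105

/-- Every approximation finer than T is at least eight times as long as the state. -/
def Sep (H : ℕ) (T : ℝ) : Prop := ∀ p : ℕ, 1 ≤ p → dd p ≤ T → 8 * H ≤ p

lemma next_h {z : ℂ} {H : ℕ} {T B : ℝ} (hsep : Sep H T) (hz : 0 < ‖z‖) (hB : 1 ≤ B)
    (hBT : 1 / B ≤ T) (hs : ‖z‖ ≤ 1 / 100) :
    ∃ h : ℕ, ∃ T' : ℝ, 1 ≤ h ∧ 8 * H ≤ h ∧ (h : ℝ) ≤ 10 * B ∧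
      0 < ‖z‖ * ‖eq' h‖ ∧ ‖z‖ * ‖eq' h‖ ≤ 7 * ‖z‖ / B ∧ 0 < T' ∧ Sep (H + h) T' ∧
      (‖z‖ * ‖eq' h‖) ^ 2 ≤ T' := by
  obtain ⟨h, h1, h2, h3, h4⟩ := approx hB
  have hd : 0 < dd h := dd_pos h1
  have hB0 : 0 < B := by linarith
  have h8 : 8 * H ≤ h := hsep h h1 (h3.trans hBT)
  refine ⟨h, min (1 / (200 * B)) (dd h / 2), h1, h8, h2, mul_pos hz (eq'_pos h1), ?_,
    lt_min (by positivity) (by linarith), fun p hp1 hp2 => ?_, le_min ?_ ?_⟩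
  · have : ‖eq' h‖ ≤ 7 / B := by
      refine (eq'_le_dd h).trans ?_
      rw [div_eq_mul_one_div 7 B]; linarith
    rw [mul_comm 7 ‖z‖, mul_div_assoc]
    exact mul_le_mul_of_nonneg_left this hz.le
  · have := h4 p hp1 (hp2.trans (min_le_left _ _)) (hp2.trans (min_le_right _ _))
    omega
  · have e1 : ‖z‖ * ‖eq' h‖ ≤ (1 / 100) * (7 / B) := by
      refine mul_le_mul hs ?_ (norm_nonneg _) (by norm_num)
      refine (eq'_le_dd h).trans ?_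
      rw [div_eq_mul_one_div 7 B]; linarith
    refine (pow_le_pow_left₀ (by positivity) e1 2).trans ?_
    rw [show ((1 / 100 : ℝ) * (7 / B)) ^ 2 = 49 / (10000 * B ^ 2) by ring,
      div_le_div_iff₀ (by positivity) (by positivity)]
    nlinarith
  · have e1 : ‖z‖ * ‖eq' h‖ ≤ (1 / 100) * (7 * dd h) :=
      mul_le_mul hs (eq'_le_dd h) (norm_nonneg _) (by norm_num)
    refine (pow_le_pow_left₀ (by positivity) e1 2).trans ?_
    have := dd_le_half h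
    nlinarith

/-- The data carried by the iteration. -/
def Inv (m b g : ℝ) (k : ℕ) : Prop :=
  ∃ A : ℝ, ∃ z : ℂ, ∃ H : ℕ, ∃ T : ℝ, Good A z H ∧ 0 < T ∧ Sep H T ∧ ‖z‖ ^ 2 ≤ T ∧ 0 < ‖z‖ ∧
    ‖z‖ ≤ 1 / 2000 ∧ 2000 * ‖z‖ ≤ m ∧ (∀ i ∈ win H, m / 2 + 100 * ‖z‖ ≤ cfac A i) ∧
    3 * ‖z‖ ≤ b ^ (3 ^ k) ∧ g ^ (2 ^ k) ≤ Real.exp (-115200) / 4 * prodP A H

lemma exists_start : ∃ m b g : ℝ, 0 < m ∧ m ≤ 1 / 2 ∧ 0 < b ∧ b < 1 ∧ 0 < g ∧ g ≤ 1 ∧
    Inv m b g 0 := by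
  obtain ⟨h0, q1, q2, q3, q4⟩ := approx (B := 700000) (by norm_num)
  have hs0 : ‖eq' h0‖ ≤ 1 / 100000 := by
    have := eq'_le_dd h0; linarith
  have hG0 : Good (dq h0) (eq' h0) h0 := by
    simpa using good_one.step q1
  set T0 : ℝ := min (1 / (200 * 700000)) (dd h0 / 2) with hT0
  have hT0pos : 0 < T0 := lt_min (by norm_num) (by linarith [dd_pos q1])
  have hsep0 : Sep h0 T0 := fun p hp1 hp2 => by
    have := q4 p hp1 (hp2.trans (min_le_left _ _)) (hp2.trans (min_le_right _ _))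
    omega
  have hne : (win h0).Nonempty := ⟨0, by simp [win]⟩
  obtain ⟨i0, hi0, hmin⟩ := Finset.exists_min_image (win h0) (cfac (dq h0)) hne
  have hc0 : 0 < cfac (dq h0) i0 := abs_pos.mpr (cos_base_ne_zero (by linarith) i0)
  set m : ℝ := min (cfac (dq h0) i0) (1 / 2) with hm
  have hm0 : 0 < m := lt_min hc0 (by norm_num)
  have hm2 : m ≤ 1 / 2 := min_le_right _ _
  have hmar : ∀ i ∈ win h0, m ≤ cfac (dq h0) i := fun i hi =>
    (min_le_left _ _).trans (hmin i hi)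
  set B : ℝ := 1 / T0 + 14000 * (4 * (h0 : ℝ) + 1) / m with hB
  have hT0one : T0 ≤ 1 := (min_le_left _ _).trans (by norm_num)
  have hBT : 1 / B ≤ T0 := by
    rw [div_le_iff₀ (by positivity), hB, mul_add]
    have : T0 * (1 / T0) = 1 := by field_simp
    have : 0 ≤ T0 * (14000 * (4 * (h0 : ℝ) + 1) / m) := by positivity
    linarith
  have hB1 : 1 ≤ B := by
    have : 1 ≤ 1 / T0 := by rw [le_div_iff₀ hT0pos]; linarith
    have : 0 ≤ 14000 * (4 * (h0 : ℝ) + 1) / m := by positivity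
    linarith
  obtain ⟨h, T, h1, h8, -, hpos, hle, hT, hsep, hsq⟩ :=
    next_h hsep0 (eq'_pos q1) hB1 hBT (by linarith)
  set s : ℝ := ‖eq' h0‖ * ‖eq' h‖ with hs
  have hBm : 14000 * (4 * (h0 : ℝ) + 1) ≤ B * m := by
    have : 14000 * (4 * (h0 : ℝ) + 1) / m ≤ B := by
      have : 0 ≤ 1 / T0 := by positivity
      linarith
    rwa [div_le_iff₀ hm0] at this
  have hsm : 2000 * s * (4 * (h0 : ℝ) + 1) ≤ m := by
    have hB0 : 0 < B := by linarith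
    have e : s ≤ 7 / B := by
      refine hle.trans (div_le_div_of_nonneg_right ?_ hB0.le)
      linarith [norm_nonneg (eq' h0)]
    have e2 : 2000 * (7 / B) * (4 * (h0 : ℝ) + 1) ≤ m := by
      rw [show 2000 * (7 / B) * (4 * (h0 : ℝ) + 1) = 14000 * (4 * (h0 : ℝ) + 1) / B by ring,
        div_le_iff₀ hB0]
      linarith
    refine le_trans ?_ e2
    gcongr
  have hs1 : 2000 * s ≤ m := by
    refine le_trans ?_ hsm
    have : 0 ≤ (h0 : ℝ) := Nat.cast_nonneg _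
    nlinarith
  have hsmall : 12 * (‖eq' h0‖ * ‖eq' h‖) * (4 * (h0 : ℝ) + 1) ≤ m / 2 := by
    rw [← hs]
    have : 0 ≤ s * (4 * (h0 : ℝ) + 1) := by positivity
    linarith
  obtain ⟨hmar', hP⟩ := hG0.window_step h1 (by omega) hm0 hm2 (by linarith) hmar hsmall
  have hPpos : 0 < prodP (dq h0 * dq h) (h0 + h) := by
    refine lt_of_lt_of_le ?_ hP
    have : 0 < prodP (dq h0) h0 := Finset.prod_pos fun i hi => lt_of_lt_of_le hm0 (hmar i hi)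
    positivity
  have hc : Real.exp (-115200) / 4 ≤ 1 := by
    have : Real.exp (-115200) ≤ 1 := Real.exp_le_one_iff.mpr (by norm_num)
    linarith
  refine ⟨m, 3 * s, Real.exp (-115200) / 4 * prodP (dq h0 * dq h) (h0 + h), hm0, hm2,
    by positivity, by linarith, by positivity, ?_, dq h0 * dq h, eq' h0 * eq' h, h0 + h, T,
    hG0.step h1, hT, hsep, ?_, ?_, ?_, ?_, ?_, ?_, ?_⟩
  · exact mul_le_one₀ hc hPpos.le (prodP_le_one _ _)
  all_goals try rw [norm_mul]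
  · exact hsq
  · exact hpos
  · linarith
  · exact hs1
  · intro i hi
    have := hmar' i hi
    linarith
  · simp [hs]
  · simp

lemma inv_next {m b g : ℝ} (hm : 0 < m) (hm2 : m ≤ 1 / 2) (hg : 0 < g) {k : ℕ}
    {A : ℝ} {z : ℂ} {H : ℕ} {T : ℝ} (hG : Good A z H) (hsep : Sep H T)
    (hT : ‖z‖ ^ 2 ≤ T) (hz : 0 < ‖z‖) (hs : ‖z‖ ≤ 1 / 2000) (hsm : 2000 * ‖z‖ ≤ m)
    (hmar : ∀ i ∈ win H, m / 2 + 100 * ‖z‖ ≤ cfac A i) (hb : 3 * ‖z‖ ≤ b ^ (3 ^ k))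
    (hP : g ^ (2 ^ k) ≤ Real.exp (-115200) / 4 * prodP A H) :
    ∃ A' : ℝ, ∃ z' : ℂ, ∃ H' : ℕ, ∃ T' : ℝ,
      (Good A' z' H' ∧ 0 < T' ∧ Sep H' T' ∧ ‖z'‖ ^ 2 ≤ T' ∧ 0 < ‖z'‖ ∧
        ‖z'‖ ≤ 1 / 2000 ∧ 2000 * ‖z'‖ ≤ m ∧
        (∀ i ∈ win H', m / 2 + 100 * ‖z'‖ ≤ cfac A' i) ∧
        3 * ‖z'‖ ≤ b ^ (3 ^ (k + 1)) ∧
        g ^ (2 ^ (k + 1)) ≤ Real.exp (-115200) / 4 * prodP A' H') ∧
      (4 * (H' : ℝ) + 1) * ‖z'‖ ≤ 567 * ‖z‖ := by
  set s : ℝ := ‖z‖ with hsdef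
  have hs2 : s ^ 2 ≤ 1 := by nlinarith
  have hB : 1 ≤ 1 / s ^ 2 := by rw [le_div_iff₀ (by positivity)]; linarith
  obtain ⟨h, T', h1, h8, h10, hpos, hle, hT', hsep', hsq⟩ :=
    next_h (z := z) hsep hz hB (by rw [one_div_one_div]; exact hT) (by linarith)
  set s' : ℝ := ‖z‖ * ‖eq' h‖ with hs'
  have hle' : s' ≤ 7 * s ^ 3 := by
    refine hle.trans (le_of_eq ?_)
    rw [← hsdef]; field_simp
  have h10' : (h : ℝ) * s ^ 2 ≤ 10 := by
    rw [mul_one_div, le_div_iff₀ (by positivity)] at h10; linarith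
  have h8' : 8 * (H : ℝ) ≤ h := by exact_mod_cast h8
  have hH0 : (0 : ℝ) ≤ H := Nat.cast_nonneg _
  have hH : (4 * (H : ℝ) + 1) * s ^ 2 ≤ 6 := by nlinarith
  have hsmall : 12 * s' * (4 * (H : ℝ) + 1) ≤ (m / 2 + 100 * s) / 2 := by
    have : s' * (4 * (H : ℝ) + 1) ≤ 42 * s := by
      calc s' * (4 * (H : ℝ) + 1) ≤ 7 * s ^ 3 * (4 * (H : ℝ) + 1) :=
            mul_le_mul_of_nonneg_right hle' (by positivity)
        _ = 7 * s * ((4 * (H : ℝ) + 1) * s ^ 2) := by ring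
        _ ≤ 7 * s * 6 := mul_le_mul_of_nonneg_left hH (by positivity)
        _ = 42 * s := by ring
    linarith
  obtain ⟨hmar', hP'⟩ :=
    hG.window_step h1 (by omega) (by linarith) (by linarith) (by linarith) hmar hsmall
  have hs's : s' ≤ s / 2 := by
    refine hle'.trans ?_
    nlinarith [mul_le_mul hs hs hz.le (by norm_num : (0 : ℝ) ≤ 1 / 2000)]
  refine ⟨A * dq h, z * eq' h, H + h, T', ⟨hG.step h1, hT', hsep', ?_, ?_, ?_, ?_, ?_, ?_, ?_⟩, ?_⟩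
  all_goals try rw [norm_mul]
  · exact hsq
  · exact hpos
  · linarith
  · linarith
  · intro i hi
    have := hmar' i hi
    linarith
  · calc 3 * s' ≤ (3 * s) ^ 3 := by nlinarith [pow_pos hz 3]
      _ ≤ (b ^ (3 ^ k)) ^ 3 := pow_le_pow_left₀ (by positivity) hb 3
      _ = b ^ (3 ^ (k + 1)) := by rw [← pow_mul, pow_succ]
  · have hexp : Real.exp (-115200) ≤ Real.exp (-(5760 * ((H : ℝ) + h) * s ^ 2)) := by
      refine Real.exp_le_exp.mpr ?_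
      have : ((H : ℝ) + h) * s ^ 2 ≤ 20 := by nlinarith
      linarith
    have h0 : 0 ≤ prodP A H ^ 2 / 4 := by positivity
    have h1' : prodP A H ^ 2 / 4 * Real.exp (-115200) ≤ prodP (A * dq h) (H + h) :=
      (mul_le_mul_of_nonneg_left hexp h0).trans hP'
    calc g ^ (2 ^ (k + 1)) = (g ^ (2 ^ k)) ^ 2 := by rw [← pow_mul, pow_succ]
      _ ≤ (Real.exp (-115200) / 4 * prodP A H) ^ 2 := pow_le_pow_left₀ (by positivity) hP 2
      _ = Real.exp (-115200) / 4 * (prodP A H ^ 2 / 4 * Real.exp (-115200)) := by ring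
      _ ≤ _ := mul_le_mul_of_nonneg_left h1' (by positivity)
  · push_cast
    calc (4 * ((H : ℝ) + h) + 1) * s' ≤ (4 * ((H : ℝ) + h) + 1) * (7 * s ^ 3) :=
          mul_le_mul_of_nonneg_left hle' (by positivity)
      _ = 7 * s * (((4 * (H : ℝ) + 1) * s ^ 2) + 4 * ((h : ℝ) * s ^ 2)) := by ring
      _ ≤ 7 * s * (6 + 4 * 10) := mul_le_mul_of_nonneg_left (by linarith) (by positivity)
      _ ≤ 567 * s := by linarith

/-- States whose defect is negligible against the squared cosine product. -/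
theorem exists_state {ε : ℝ} (hε : 0 < ε) :
    ∃ A : ℝ, ∃ z : ℂ, ∃ H : ℕ, Good A z H ∧ 0 < ‖z‖ ∧ ‖z‖ ≤ 1 / 2000 ∧ 0 < prodP A H ∧
      (4 * (H : ℝ) + 1) * ‖z‖ ≤ ε * prodP A H ^ 2 := by
  obtain ⟨m, b, g, hm, hm2, hb0, hb1, hg0, hg1, h0⟩ := exists_start
  have hall : ∀ k, Inv m b g k := by
    intro k
    induction k with
    | zero => exact h0
    | succ k ih =>
      obtain ⟨A, z, H, T, hG, -, hsep, hT, hz, hs, hsm, hmar, hb, hP⟩ := ih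
      obtain ⟨A', z', H', T', h, -⟩ := inv_next hm hm2 hg0 hG hsep hT hz hs hsm hmar hb hP
      exact ⟨A', z', H', T', h⟩
  set ζ : ℝ := min (ε / 189) 1 with hζ
  have hζ0 : 0 < ζ := lt_min (by positivity) one_pos
  have hζ1 : ζ ≤ 1 := min_le_right _ _
  obtain ⟨N, hN⟩ := exists_pow_lt_of_lt_one (mul_pos (pow_pos hg0 4) hζ0) hb1
  obtain ⟨k, hk⟩ := pow_unbounded_of_one_lt (N : ℝ) (show (1 : ℝ) < 3 / 2 by norm_num)
  have hk' : N * 2 ^ k ≤ 3 ^ k := by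
    have : (N : ℝ) * 2 ^ k ≤ 3 ^ k := by
      rw [← le_div_iff₀ (by positivity), ← div_pow]; exact hk.le
    exact_mod_cast this
  have hb3 : b ^ (3 ^ k) ≤ (g ^ (2 ^ k)) ^ 4 * ζ := by
    calc b ^ (3 ^ k) ≤ b ^ (N * 2 ^ k) := pow_le_pow_of_le_one hb0.le hb1.le hk'
      _ = (b ^ N) ^ (2 ^ k) := pow_mul b N _
      _ ≤ (g ^ 4 * ζ) ^ (2 ^ k) := pow_le_pow_left₀ (by positivity) hN.le _
      _ = (g ^ (2 ^ k)) ^ 4 * ζ ^ (2 ^ k) := by rw [mul_pow, ← pow_mul, ← pow_mul, mul_comm 4]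
      _ ≤ (g ^ (2 ^ k)) ^ 4 * ζ :=
        mul_le_mul_of_nonneg_left (pow_le_of_le_one hζ0.le hζ1 (by positivity)) (by positivity)
  obtain ⟨A, z, H, T, hG, -, hsep, hT, hz, hs, hsm, hmar, hb, hP⟩ := hall k
  obtain ⟨A', z', H', T', ⟨hG', -, -, -, hz', hs', -, -, -, hP'⟩, hfin⟩ :=
    inv_next hm hm2 hg0 hG hsep hT hz hs hsm hmar hb hP
  set c : ℝ := Real.exp (-115200) / 4 with hc
  have hc0 : 0 < c := by positivity
  have hc1 : c ≤ 1 := by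
    have : Real.exp (-115200) ≤ 1 := Real.exp_le_one_iff.mpr (by norm_num)
    linarith
  have hP'0 : 0 < prodP A' H' := by
    by_contra hcon
    have : c * prodP A' H' ≤ 0 := mul_nonpos_of_nonneg_of_nonpos hc0.le (not_lt.mp hcon)
    linarith [pow_pos hg0 (2 ^ (k + 1))]
  refine ⟨A', z', H', hG', hz', hs', hP'0, hfin.trans ?_⟩
  have e1 : (g ^ (2 ^ k)) ^ 4 ≤ prodP A' H' ^ 2 := by
    calc (g ^ (2 ^ k)) ^ 4 = (g ^ (2 ^ (k + 1))) ^ 2 := by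
          rw [← pow_mul, ← pow_mul, pow_succ]; ring_nf
      _ ≤ (c * prodP A' H') ^ 2 := pow_le_pow_left₀ (by positivity) hP' 2
      _ ≤ prodP A' H' ^ 2 := pow_le_pow_left₀ (by positivity) (mul_le_of_le_one_left hP'0.le hc1) 2
  calc 567 * ‖z‖ ≤ 189 * b ^ (3 ^ k) := by linarith
    _ ≤ 189 * ((g ^ (2 ^ k)) ^ 4 * ζ) := by linarith
    _ ≤ 189 * (prodP A' H' ^ 2 * (ε / 189)) := by
        refine mul_le_mul_of_nonneg_left ?_ (by norm_num)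
        exact mul_le_mul e1 (min_le_left _ _) hζ0.le (by positivity)
    _ = ε * prodP A' H' ^ 2 := by ring

end Vale.Agent.P105
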