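import Vale.Agent.P105.Moments

/-!
# Singularity of the Bernoulli convolution of the quartic Salem number
-/

namespace Vale.Agent.P105

open MeasureTheory Finset
open scoped Topology ENNReal

noncomputable def testSum (A : ℝ) (σ : ℕ → ℝ) (I : Finset ℕ) (x : ℝ) : ℝ :=
  ∑ n ∈ I, σ n * Real.cos (freq A n * x)

lemma continuous_testSum (A : ℝ) (σ : ℕ → ℝ) (I : Finset ℕ) : Continuous (testSum A σ I) := by
  unfold testSum
  fun_prop

lemma integral_cos_mul_cos_le {a b c : ℝ} (hc : 0 < c) (h1 : c ≤ |a - b|) (h2 : c ≤ |a + b|) :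
    |∫ x in (-3 : ℝ)..3, Real.cos (a * x) * Real.cos (b * x)| ≤ 2 / c := by
  have hne1 : a - b ≠ 0 := by intro h; rw [h, abs_zero] at h1; linarith
  have hne2 : a + b ≠ 0 := by intro h; rw [h, abs_zero] at h2; linarith
  have key : ∀ d : ℝ, d ≠ 0 → c ≤ |d| → |∫ x in (-3 : ℝ)..3, Real.cos (d * x)| ≤ 2 / c := by
    intro d hd hcd
    rw [intervalIntegral.integral_comp_mul_left (fun x => Real.cos x) hd, integral_cos, smul_eq_mul,
      abs_mul, abs_inv, inv_mul_eq_div]
    refine div_le_div₀ (by norm_num) ?_ hc hcd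
    refine (abs_sub _ _).trans ?_
    linarith [Real.abs_sin_le_one (d * 3), Real.abs_sin_le_one (d * -3)]
  have e : (fun x : ℝ => Real.cos (a * x) * Real.cos (b * x))
      = fun x => (1 / 2 : ℝ) * Real.cos ((a - b) * x) + (1 / 2 : ℝ) * Real.cos ((a + b) * x) := by
    funext x
    rw [sub_mul, add_mul, Real.cos_sub, Real.cos_add]
    ring
  rw [e, intervalIntegral.integral_add ((by fun_prop : Continuous _).intervalIntegrable _ _)
    ((by fun_prop : Continuous _).intervalIntegrable _ _), intervalIntegral.integral_const_mul,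
    intervalIntegral.integral_const_mul]
  refine (abs_add_le _ _).trans ?_
  rw [abs_mul, abs_mul, abs_of_pos (by norm_num : (0 : ℝ) < 1 / 2)]
  linarith [key _ hne1 h1, key _ hne2 h2]

lemma freq_sep {A : ℝ} (hA : 1 ≤ A) {n m : ℕ} (h : m < n) :
    beta ^ n ≤ freq A n - freq A m ∧ 0 < freq A m := by
  have hp := Real.pi_gt_three
  have h1 : beta ^ m * (17 / 10) ≤ beta ^ n := by
    refine le_trans ?_ (pow_le_pow_right₀ beta_one_lt.le (show m + 1 ≤ n from h))
    rw [pow_succ]
    exact mul_le_mul_of_nonneg_left beta_gt.le (pow_pos beta_pos _).le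
  have hm0 : 0 < beta ^ m := pow_pos beta_pos _
  unfold freq
  rw [zpow_natCast, zpow_natCast]
  refine ⟨?_, by positivity⟩
  have h2 : 0 ≤ beta ^ n - beta ^ m := by linarith
  have h3 : beta ^ n - beta ^ m ≤ A * (beta ^ n - beta ^ m) := le_mul_of_one_le_left h2 hA
  have h4 : 3 * (A * (beta ^ n - beta ^ m)) ≤ Real.pi * (A * (beta ^ n - beta ^ m)) :=
    mul_le_mul_of_nonneg_right hp.le (by linarith)
  linarith

lemma testSum_sq_integral_le {A : ℝ} (hA : 1 ≤ A) {σ : ℕ → ℝ} (hσ : ∀ n, |σ n| = 1)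
    (I : Finset ℕ) :
    ∫ x in (-3 : ℝ)..3, testSum A σ I x ^ 2 ≤ 20 * (I.card : ℝ) := by
  have hexp : (fun x : ℝ => testSum A σ I x ^ 2)
      = fun x => ∑ n ∈ I, ∑ m ∈ I, σ n * σ m * (Real.cos (freq A n * x) * Real.cos (freq A m * x)) := by
    funext x
    unfold testSum
    rw [sq, Finset.sum_mul_sum]
    refine Finset.sum_congr rfl fun n _ => Finset.sum_congr rfl fun m _ => ?_
    ring
  rw [hexp, intervalIntegral.integral_finset_sum
    fun n _ => (by fun_prop : Continuous _).intervalIntegrable _ _]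
  have hterm : ∀ n ∈ I, ∀ m ∈ I,
      (∫ x in (-3 : ℝ)..3, σ n * σ m * (Real.cos (freq A n * x) * Real.cos (freq A m * x)))
      ≤ (if m = n then (6 : ℝ) else 0) + 2 * (beta⁻¹ ^ n + beta⁻¹ ^ m) := by
    intro n _ m _
    rw [intervalIntegral.integral_const_mul]
    refine (le_abs_self _).trans ?_
    rw [abs_mul, abs_mul, hσ, hσ, one_mul, one_mul]
    have p1 : 0 ≤ beta⁻¹ ^ n := pow_nonneg lam_nonneg n
    have p2 : 0 ≤ beta⁻¹ ^ m := pow_nonneg lam_nonneg m
    rcases lt_trichotomy m n with h | h | h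
    · rw [if_neg (by omega), zero_add]
      obtain ⟨h1, h2⟩ := freq_sep hA h
      refine (integral_cos_mul_cos_le (pow_pos beta_pos n) (h1.trans (le_abs_self _)) ?_).trans ?_
      · refine le_trans ?_ (le_abs_self _); linarith
      · rw [div_eq_mul_inv, ← inv_pow]; linarith
    · subst h
      rw [if_pos rfl]
      have := intervalIntegral.norm_integral_le_of_norm_le_const (a := (-3 : ℝ)) (b := 3) (C := 1)
        (f := fun x => Real.cos (freq A m * x) * Real.cos (freq A m * x)) (fun x _ => by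
          rw [Real.norm_eq_abs, abs_mul]
          exact mul_le_one₀ (Real.abs_cos_le_one _) (abs_nonneg _) (Real.abs_cos_le_one _))
      rw [Real.norm_eq_abs] at this
      norm_num at this
      linarith
    · rw [if_neg (by omega), zero_add]
      obtain ⟨h1, h2⟩ := freq_sep hA h
      refine (integral_cos_mul_cos_le (pow_pos beta_pos m) ?_ ?_).trans ?_
      · rw [abs_sub_comm]; exact h1.trans (le_abs_self _)
      · refine le_trans ?_ (le_abs_self _); linarith
      · rw [div_eq_mul_inv, ← inv_pow]; linarith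
  calc ∑ n ∈ I, ∫ x in (-3 : ℝ)..3,
        ∑ m ∈ I, σ n * σ m * (Real.cos (freq A n * x) * Real.cos (freq A m * x))
      ≤ ∑ n ∈ I, ∑ m ∈ I, ((if m = n then (6 : ℝ) else 0) + 2 * (beta⁻¹ ^ n + beta⁻¹ ^ m)) := by
        refine Finset.sum_le_sum fun n hn => ?_
        rw [intervalIntegral.integral_finset_sum
          fun m _ => (by fun_prop : Continuous _).intervalIntegrable _ _]
        exact Finset.sum_le_sum (hterm n hn)
    _ = ∑ n ∈ I, ((6 : ℝ) + 2 * ((I.card : ℝ) * beta⁻¹ ^ n + ∑ m ∈ I, beta⁻¹ ^ m)) := by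
        refine Finset.sum_congr rfl fun n hn => ?_
        rw [Finset.sum_add_distrib, Finset.sum_ite_eq', if_pos hn, ← Finset.mul_sum,
          Finset.sum_add_distrib, Finset.sum_const, nsmul_eq_mul]
    _ = (I.card : ℝ) * 6 + 4 * ((I.card : ℝ) * ∑ m ∈ I, beta⁻¹ ^ m) := by
        rw [Finset.sum_add_distrib, Finset.sum_const, nsmul_eq_mul, ← Finset.mul_sum,
          Finset.sum_add_distrib, Finset.sum_const, nsmul_eq_mul, ← Finset.mul_sum]
        ring
    _ ≤ 20 * (I.card : ℝ) := by
        have := mul_le_mul_of_nonneg_left (sum_inv_pow_le I) (Nat.cast_nonneg (α := ℝ) I.card)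
        linarith

lemma variance_le {A : ℝ} {z : ℂ} {H N : ℕ} (hG : Good A z H) (hs : ‖z‖ ≤ 1 / 2000)
    (hN : (N : ℝ) * ‖z‖ ≤ 1) (hN2 : 1 ≤ 2 * ((N : ℝ) * ‖z‖)) {σ : ℕ → ℝ}
    (hσ : ∀ n, |σ n| = 1) :
    ∫ e, (testSum A σ (Finset.Ioc (2 * H) (2 * H + N)) (seriesValue beta⁻¹ e)
        - ∑ n ∈ Finset.Ioc (2 * H) (2 * H + N),
            σ n * ∫ e', Real.cos (freq A n * seriesValue beta⁻¹ e') ∂coinMeasure) ^ 2 ∂coinMeasure
      ≤ (N : ℝ) ^ 2 * (220 * ((4 * (H : ℝ) + 1) * ‖z‖)) := by
  set I := Finset.Ioc (2 * H) (2 * H + N) with hI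
  set E : ℕ → ℝ := fun n => ∫ e', Real.cos (freq A n * seriesValue beta⁻¹ e') ∂coinMeasure with hE
  set X : ℕ → (ℕ → Bool) → ℝ := fun n e => Real.cos (freq A n * seriesValue beta⁻¹ e) with hX
  have hXm : ∀ n, Measurable (X n) := fun n =>
    Real.measurable_cos.comp ((measurable_seriesValue lam_nonneg lam_lt_one).const_mul _)
  have hXb : ∀ n e, |X n e| ≤ 1 := fun n e => Real.abs_cos_le_one _
  have hint : ∀ n m, Integrable (fun e => (X n e - E n) * (X m e - E m)) coinMeasure := by
    intro n m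
    refine Integrable.of_bound (((hXm n).sub_const _).mul ((hXm m).sub_const _)).aestronglyMeasurable
      4 (ae_of_all _ fun e => ?_)
    rw [Real.norm_eq_abs, abs_mul, show (4 : ℝ) = 2 * 2 by norm_num]
    refine mul_le_mul ?_ ?_ (abs_nonneg _) (by norm_num)
    · exact (abs_sub _ _).trans (by linarith [hXb n e, abs_integral_cos_le (freq A n)])
    · exact (abs_sub _ _).trans (by linarith [hXb m e, abs_integral_cos_le (freq A m)])
  have hcov : ∀ n m, ∫ e, (X n e - E n) * (X m e - E m) ∂coinMeasure = covar A n m := by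
    intro n m
    have i1 : Integrable (fun e => X n e * X m e) coinMeasure :=
      Integrable.of_bound ((hXm n).mul (hXm m)).aestronglyMeasurable 1 (ae_of_all _ fun e => by
        rw [Real.norm_eq_abs, abs_mul]
        exact mul_le_one₀ (hXb n e) (abs_nonneg _) (hXb m e))
    have i2 := integrable_cos_series lam_nonneg lam_lt_one (freq A n)
    have i3 := integrable_cos_series lam_nonneg lam_lt_one (freq A m)
    have e1 : (fun e => (X n e - E n) * (X m e - E m))
        = fun e => (X n e * X m e - E m * X n e) - (E n * X m e - E n * E m) := by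
      funext e; ring
    have j2 : Integrable (fun e => E m * X n e) coinMeasure := i2.const_mul _
    have j3 : Integrable (fun e => E n * X m e) coinMeasure := i3.const_mul _
    have j1 : Integrable (fun e => X n e * X m e - E m * X n e) coinMeasure := i1.sub j2
    have j4 : Integrable (fun e => E n * X m e - E n * E m) coinMeasure :=
      j3.sub (integrable_const _)
    rw [e1, integral_sub j1 j4, integral_sub i1 j2, integral_sub j3 (integrable_const _),
      integral_const_mul, integral_const_mul, integral_const]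
    simp only [probReal_univ, one_smul, hX, hE, covar]
    ring
  have e : (fun e => (testSum A σ I (seriesValue beta⁻¹ e) - ∑ n ∈ I, σ n * E n) ^ 2)
      = fun e => ∑ n ∈ I, ∑ m ∈ I, σ n * σ m * ((X n e - E n) * (X m e - E m)) := by
    funext e
    unfold testSum
    rw [← Finset.sum_sub_distrib, sq, Finset.sum_mul_sum]
    refine Finset.sum_congr rfl fun n _ => Finset.sum_congr rfl fun m _ => ?_
    simp only [hX]
    ring
  rw [e, integral_finset_sum _ fun n _ => integrable_finset_sum _ fun m _ =>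
    (hint n m).const_mul _]
  refine le_trans ?_ (covar_sum_le hG hs hN hN2)
  refine Finset.sum_le_sum fun n _ => ?_
  rw [integral_finset_sum _ fun m _ => (hint n m).const_mul _]
  refine Finset.sum_le_sum fun m _ => ?_
  rw [integral_const_mul, hcov]
  refine (le_abs_self _).trans ?_
  rw [abs_mul, abs_mul, hσ, hσ, one_mul, one_mul]

lemma exists_small_set {ε : ℝ} (hε : 0 < ε) :
    ∃ S : Set ℝ, MeasurableSet S ∧
      (bernoulliConvolution beta⁻¹).real Sᶜ ≤ ε ∧ (volume S) ≤ ENNReal.ofReal ε := by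
  obtain ⟨A, z, H, hG, hz, hs, hP, hw⟩ :=
    exists_state (show (0 : ℝ) < ε / 4000 by positivity)
  set s : ℝ := ‖z‖ with hs'
  set P : ℝ := prodP A H with hP'
  set w : ℝ := (4 * (H : ℝ) + 1) * s with hwdef
  set N : ℕ := ⌊1 / s⌋₊ with hNdef
  have hN : (N : ℝ) * s ≤ 1 := by
    rw [← le_div_iff₀ hz]; exact Nat.floor_le (by positivity)
  have hN2 : 1 ≤ 2 * ((N : ℝ) * s) := by
    have h := Nat.lt_floor_add_one (1 / s)
    rw [div_lt_iff₀ hz, ← hNdef] at h
    linarith
  have hNpos : (0 : ℝ) < N := by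
    rcases Nat.eq_zero_or_pos N with h | h
    · rw [h] at hN2; simp at hN2; linarith
    · exact_mod_cast h
  set I := Finset.Ioc (2 * H) (2 * H + N) with hI
  have hcard : (I.card : ℝ) = N := by rw [hI, Nat.card_Ioc]; simp
  set E : ℕ → ℝ := fun n => ∫ e, Real.cos (freq A n * seriesValue beta⁻¹ e) ∂coinMeasure with hE
  set σ : ℕ → ℝ := fun n => if 0 ≤ E n then 1 else -1 with hσdef
  have hσ : ∀ n, |σ n| = 1 := fun n => by simp only [hσdef]; split_ifs <;> simp
  have hσE : ∀ n, σ n * E n = |E n| := fun n => by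
    simp only [hσdef]
    split_ifs with h
    · rw [one_mul, abs_of_nonneg h]
    · rw [abs_of_neg (not_le.mp h), neg_one_mul]
  set θ : ℝ := (N : ℝ) * P / 4 with hθ
  have hθ0 : 0 < θ := by positivity
  have hmean : 2 * θ ≤ ∑ n ∈ I, σ n * E n := by
    simp only [hσE]
    refine le_trans ?_ (Finset.sum_le_sum fun n hn => mean_ge hG hs hN hn)
    rw [Finset.sum_const, nsmul_eq_mul, hcard, hθ]
    linarith
  set S : Set ℝ := Set.Icc (-3) 3 ∩ {x | θ ≤ testSum A σ I x} with hS
  have hcont := continuous_testSum A σ I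
  have hSm : MeasurableSet S :=
    measurableSet_Icc.inter (measurableSet_le measurable_const hcont.measurable)
  refine ⟨S, hSm, ?_, ?_⟩
  · -- the mass of the complement
    have hY := measurable_seriesValue lam_nonneg lam_lt_one
    rw [show bernoulliConvolution beta⁻¹ = coinMeasure.map (seriesValue beta⁻¹) from rfl,
      measureReal_def, Measure.map_apply hY hSm.compl, ← measureReal_def]
    set f : (ℕ → Bool) → ℝ := fun e =>
      (testSum A σ I (seriesValue beta⁻¹ e) - ∑ n ∈ I, σ n * E n) ^ 2 with hf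
    have hTb : ∀ x, |testSum A σ I x| ≤ N := by
      intro x
      unfold testSum
      refine (Finset.abs_sum_le_sum_abs _ _).trans ?_
      refine (Finset.sum_le_sum (g := fun _ => (1 : ℝ)) fun n _ => ?_).trans ?_
      · rw [abs_mul, hσ, one_mul]; exact Real.abs_cos_le_one _
      · simp [hcard]
    have hfi : Integrable f coinMeasure := by
      refine Integrable.of_bound
        (((hcont.measurable.comp hY).sub_const _).pow_const 2).aestronglyMeasurable
        (((N : ℝ) + |∑ n ∈ I, σ n * E n|) ^ 2) (ae_of_all _ fun e => ?_)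
      rw [Real.norm_eq_abs, hf, abs_pow]
      refine pow_le_pow_left₀ (abs_nonneg _) ((abs_sub _ _).trans ?_) 2
      linarith [hTb (seriesValue beta⁻¹ e)]
    have hsub : seriesValue beta⁻¹ ⁻¹' Sᶜ ⊆ {e | θ ^ 2 ≤ f e} := by
      intro e he
      have hb : |seriesValue beta⁻¹ e| ≤ 3 := by
        refine (abs_seriesValue_le lam_nonneg lam_lt_one e).trans ?_
        have h : beta⁻¹ ≤ 2 / 3 := by
          rw [inv_le_comm₀ beta_pos (by norm_num)]; linarith [beta_gt]
        rw [inv_le_comm₀ (by linarith [lam_lt_one]) (by norm_num)]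
        linarith
      simp only [Set.mem_preimage, Set.mem_compl_iff, hS, Set.mem_inter_iff, Set.mem_Icc,
        Set.mem_setOf_eq, not_and, not_le] at he
      have h2 := he (abs_le.mp hb)
      simp only [Set.mem_setOf_eq, hf]
      have h3 : θ ≤ (∑ n ∈ I, σ n * E n) - testSum A σ I (seriesValue beta⁻¹ e) := by linarith
      calc θ ^ 2 ≤ ((∑ n ∈ I, σ n * E n) - testSum A σ I (seriesValue beta⁻¹ e)) ^ 2 :=
            pow_le_pow_left₀ hθ0.le h3 2
        _ = _ := by ring
    have hmono := measureReal_mono (μ := coinMeasure) hsub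
    have hmk := mul_meas_ge_le_integral_of_nonneg (μ := coinMeasure)
      (ae_of_all _ fun e => by simp only [hf, Pi.zero_apply]; positivity) hfi (θ ^ 2)
    have hvar : ∫ e, f e ∂coinMeasure ≤ (N : ℝ) ^ 2 * (220 * w) := variance_le hG hs hN hN2 hσ
    have h5 : θ ^ 2 * coinMeasure.real (seriesValue beta⁻¹ ⁻¹' Sᶜ) ≤ θ ^ 2 * ε := by
      refine (mul_le_mul_of_nonneg_left hmono (sq_nonneg θ)).trans (hmk.trans (hvar.trans ?_))
      have h6 : (N : ℝ) ^ 2 * (220 * w) ≤ (N : ℝ) ^ 2 * (220 * (ε / 4000 * P ^ 2)) := by gcongr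
      have h7 : 0 ≤ (N : ℝ) ^ 2 * (P ^ 2 * ε) := by positivity
      rw [hθ]
      linarith
    exact le_of_mul_le_mul_left h5 (by positivity)
  · -- the length
    set T : ℝ → ℝ := fun x => testSum A σ I x ^ 2 with hT
    have hA : 1 ≤ A := hG.1
    have hTc : Continuous T := hcont.pow 2
    have hTi : IntegrableOn T (Set.Icc (-3) 3) volume := hTc.continuousOn.integrableOn_Icc
    have hmk := mul_meas_ge_le_integral_of_nonneg (μ := volume.restrict (Set.Icc (-3 : ℝ) 3))
      (ae_of_all _ fun x => by simp only [hT, Pi.zero_apply]; positivity) hTi (θ ^ 2)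
    rw [measureReal_restrict_apply (measurableSet_le measurable_const hTc.measurable)] at hmk
    have hsub : S ⊆ {x | θ ^ 2 ≤ T x} ∩ Set.Icc (-3) 3 := by
      rintro x ⟨hx1, hx2⟩
      exact ⟨pow_le_pow_left₀ hθ0.le hx2 2, hx1⟩
    have hfin : volume ({x | θ ^ 2 ≤ T x} ∩ Set.Icc (-3) 3) ≠ ∞ :=
      ne_top_of_le_ne_top (by simp) (measure_mono Set.inter_subset_right)
    have hmono := measureReal_mono (μ := volume) hsub hfin
    have hint : ∫ x in Set.Icc (-3 : ℝ) 3, T x ≤ 20 * (N : ℝ) := by
      rw [integral_Icc_eq_integral_Ioc,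
        ← intervalIntegral.integral_of_le (by norm_num : (-3 : ℝ) ≤ 3)]
      have := testSum_sq_integral_le hA hσ I
      rw [hcard] at this
      exact this
    have h5 : θ ^ 2 * volume.real S ≤ θ ^ 2 * ε := by
      refine (mul_le_mul_of_nonneg_left hmono (sq_nonneg θ)).trans (hmk.trans (hint.trans ?_))
      have h6 : s ≤ ε / 4000 * P ^ 2 := by
        refine le_trans ?_ hw
        have : 0 ≤ (H : ℝ) * s := by positivity
        linarith
      have h7 : (N : ℝ) ≤ 2 * ((N : ℝ) ^ 2 * s) := by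
        have := mul_le_mul_of_nonneg_left hN2 hNpos.le
        linarith
      have h8 : (N : ℝ) ^ 2 * s ≤ (N : ℝ) ^ 2 * (ε / 4000 * P ^ 2) :=
        mul_le_mul_of_nonneg_left h6 (sq_nonneg _)
      have h9 : 0 ≤ (N : ℝ) ^ 2 * (P ^ 2 * ε) := by positivity
      rw [hθ]
      linarith
    have h10 : volume.real S ≤ ε := le_of_mul_le_mul_left h5 (by positivity)
    have hS' : volume S ≠ ∞ := ne_top_of_le_ne_top hfin (measure_mono hsub)
    rw [← ENNReal.ofReal_toReal hS']
    exact ENNReal.ofReal_le_ofReal h10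

lemma isProbabilityMeasure_conv : IsProbabilityMeasure (bernoulliConvolution beta⁻¹) :=
  Measure.isProbabilityMeasure_map
    (measurable_seriesValue lam_nonneg lam_lt_one).aemeasurable

/-- The Bernoulli convolution of the quartic Salem number is singular. -/
theorem mutuallySingular_beta : bernoulliConvolution beta⁻¹ ⟂ₘ (volume : Measure ℝ) := by
  haveI := isProbabilityMeasure_conv
  choose S hSm hν hV using fun n : ℕ =>
    exists_small_set (ε := (1 / 2 : ℝ) ^ n) (by positivity)
  set U : Set ℝ := Filter.limsup S Filter.atTop with hU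
  have hUm : MeasurableSet U := MeasurableSet.measurableSet_limsup hSm
  have hsum : ∑' n : ℕ, ENNReal.ofReal ((1 / 2 : ℝ) ^ n) ≠ ∞ := by
    rw [← ENNReal.ofReal_tsum_of_nonneg (fun n => by positivity)
      (summable_geometric_of_lt_one (by norm_num) (by norm_num))]
    exact ENNReal.ofReal_ne_top
  have hV0 : volume U = 0 :=
    measure_limsup_atTop_eq_zero (ne_top_of_le_ne_top hsum (ENNReal.tsum_le_tsum hV))
  have hν' : ∀ n, bernoulliConvolution beta⁻¹ (S n)ᶜ ≤ ENNReal.ofReal ((1 / 2 : ℝ) ^ n) := by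
    intro n
    rw [← ENNReal.ofReal_toReal (measure_ne_top _ (S n)ᶜ)]
    exact ENNReal.ofReal_le_ofReal (hν n)
  have hW : bernoulliConvolution beta⁻¹ (Filter.limsup (fun n => (S n)ᶜ) Filter.atTop) = 0 :=
    measure_limsup_atTop_eq_zero (ne_top_of_le_ne_top hsum (ENNReal.tsum_le_tsum hν'))
  refine ⟨Uᶜ, hUm.compl, measure_mono_null ?_ hW, by rw [compl_compl]; exact hV0⟩
  intro x hx
  simp only [hU, Set.mem_compl_iff, Filter.mem_limsup_iff_frequently_mem, Filter.not_frequently]
    at hx
  rw [Filter.mem_limsup_iff_frequently_mem]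
  exact hx.frequently

end Vale.Agent.P105
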