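import Vale.Agent.P105.Approx

/-!
# Frequency states and one step of the construction
-/

namespace Vale.Agent.P105

open Finset

/-- An amplitude A, a complex amplitude z and an exponent bound H giving an integer sequence. -/
def Good (A : ℝ) (z : ℂ) (H : ℕ) : Prop :=
  1 ≤ A ∧ A ≤ beta ^ (H : ℤ) ∧ beta ^ (-(H : ℤ)) ≤ ‖z‖ ∧
    ∃ σ : ℝ, |σ| = 1 ∧ ∀ i : ℤ, ∃ x : ℤ,
      A * beta ^ i + σ * (A * beta ^ (-i)) + 2 * (z * wc ^ i).re = (x : ℝ)

/-- The cosine factor. -/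
noncomputable def cfac (A : ℝ) (i : ℤ) : ℝ := |Real.cos (Real.pi * (A * beta ^ i))|

/-- The window of a state. -/
noncomputable def win (H : ℕ) : Finset ℤ := Finset.Icc (-(2 * (H : ℤ))) (2 * (H : ℤ))

/-- The product of cosines over the window. -/
noncomputable def prodP (A : ℝ) (H : ℕ) : ℝ := ∏ i ∈ win H, cfac A i

lemma cfac_nonneg (A : ℝ) (i : ℤ) : 0 ≤ cfac A i := abs_nonneg _

lemma cfac_le_one (A : ℝ) (i : ℤ) : cfac A i ≤ 1 := Real.abs_cos_le_one _

lemma prodP_nonneg (A : ℝ) (H : ℕ) : 0 ≤ prodP A H :=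
  Finset.prod_nonneg fun i _ => cfac_nonneg A i

lemma prodP_le_one (A : ℝ) (H : ℕ) : prodP A H ≤ 1 :=
  Finset.prod_le_one (fun i _ => cfac_nonneg A i) fun i _ => cfac_le_one A i

lemma card_win (H : ℕ) : (win H).card = 4 * H + 1 := by
  rw [win, Int.card_Icc]; omega

lemma good_one : Good 1 1 0 := by
  refine ⟨le_rfl, by simp, by simp, 1, by simp, fun i => ?_⟩
  simpa using base_int i

lemma Good.step {A : ℝ} {z : ℂ} {H : ℕ} (hG : Good A z H) {h : ℕ} (hh : 1 ≤ h) :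
    Good (A * dq h) (z * eq' h) (H + h) := by
  obtain ⟨hA1, hA2, hz, σ, hσ, hx⟩ := hG
  have hd := dq_ge_one hh
  refine ⟨?_, ?_, ?_, -σ, by rwa [abs_neg], fun i => ?_⟩
  · nlinarith
  · push_cast
    rw [zpow_add₀ beta_pos.ne']
    exact mul_le_mul hA2 (dq_le h) (by linarith) (zpow_pos beta_pos _).le
  · push_cast
    rw [neg_add, zpow_add₀ beta_pos.ne', norm_mul]
    exact mul_le_mul hz (eq'_ge hh) (zpow_pos beta_pos _).le (norm_nonneg _)
  · obtain ⟨x, hx1⟩ := hx (i + h)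
    obtain ⟨y, hy1⟩ := hx (i - h)
    refine ⟨x - y, ?_⟩
    have e1 : A * dq h * beta ^ i = A * beta ^ (i + h) - A * beta ^ (i - h) := by
      simp only [dq, sub_eq_add_neg, zpow_add₀ beta_pos.ne']; ring
    have e2 : A * dq h * beta ^ (-i) = A * beta ^ (-(i - h)) - A * beta ^ (-(i + h)) := by
      simp only [dq, sub_eq_add_neg, neg_add, neg_neg, zpow_add₀ beta_pos.ne']; ring
    have e3 : z * eq' h * wc ^ i = z * wc ^ (i + h) - z * wc ^ (i - h) := by
      simp only [eq', sub_eq_add_neg, zpow_add₀ wc_ne]; ring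
    rw [e1, e2, e3, Complex.sub_re]
    push_cast
    linear_combination hx1 - hy1

lemma abs_sin_pi_sub (a b : ℝ) :
    |Real.sin (Real.pi * (a - b))| ≤ |Real.sin (Real.pi * a)| + |Real.sin (Real.pi * b)| := by
  rw [mul_sub, Real.sin_sub]
  refine (abs_sub _ _).trans (add_le_add ?_ ?_)
  · rw [abs_mul]; exact mul_le_of_le_one_right (abs_nonneg _) (Real.abs_cos_le_one _)
  · rw [abs_mul]; exact mul_le_of_le_one_left (abs_nonneg _) (Real.abs_cos_le_one _)

lemma abs_sin_pi_le (a : ℝ) : |Real.sin (Real.pi * a)| ≤ 4 * |a| := by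
  refine Real.abs_sin_le_abs.trans ?_
  rw [abs_mul, abs_of_pos Real.pi_pos]
  exact mul_le_mul_of_nonneg_right Real.pi_le_four (abs_nonneg _)

lemma abs_sin_pi_int_add (x : ℤ) (a : ℝ) :
    |Real.sin (Real.pi * ((x : ℝ) + a))| = |Real.sin (Real.pi * a)| := by
  rw [mul_add, add_comm, mul_comm Real.pi (x : ℝ), Real.sin_add_int_mul_pi]
  simp [abs_mul]

lemma abs_cos_pi_int_add (x : ℤ) (a : ℝ) :
    |Real.cos (Real.pi * ((x : ℝ) + a))| = |Real.cos (Real.pi * a)| := by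
  rw [mul_add, add_comm, mul_comm Real.pi (x : ℝ), Real.cos_add_int_mul_pi]
  simp [abs_mul]

lemma cos_pert (a q : ℝ) :
    |Real.cos (Real.pi * a)| - 4 * |q| ≤ |Real.cos (Real.pi * (a + q))| := by
  have h1 := abs_sub_abs_le_abs_sub (Real.cos (Real.pi * a)) (Real.cos (Real.pi * (a + q)))
  have h2 := Real.abs_cos_sub_cos_le (Real.pi * a) (Real.pi * (a + q))
  rw [← mul_sub, sub_add_cancel_left, abs_mul, abs_neg, abs_of_pos Real.pi_pos] at h2
  have h3 : Real.pi * |q| ≤ 4 * |q| := mul_le_mul_of_nonneg_right Real.pi_le_four (abs_nonneg _)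
  linarith

lemma abs_two_re_le (v : ℂ) : |2 * v.re| ≤ 2 * ‖v‖ := by
  rw [abs_mul, abs_two]
  exact mul_le_mul_of_nonneg_left (Complex.abs_re_le_norm v) (by norm_num)

lemma norm_z_wc (z : ℂ) (i : ℤ) : ‖z * wc ^ i‖ = ‖z‖ := by
  rw [norm_mul, norm_zpow, wc_norm, one_zpow, mul_one]

lemma Good.left {A : ℝ} {z : ℂ} {H : ℕ} (hG : Good A z H) {i : ℤ} (hi : i < -(2 * (H : ℤ))) :
    |Real.sin (Real.pi * (A * beta ^ i))| ≤ 4 * (‖z‖ * beta ^ (i + 2 * (H : ℤ))) := by
  obtain ⟨hA1, hA2, hz, -⟩ := hG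
  refine (abs_sin_pi_le _).trans (mul_le_mul_of_nonneg_left ?_ (by norm_num))
  rw [abs_of_nonneg (mul_nonneg (by linarith) (zpow_pos beta_pos _).le)]
  have e : beta ^ (H : ℤ) * beta ^ i = beta ^ (-(H : ℤ)) * beta ^ (i + 2 * (H : ℤ)) := by
    rw [← zpow_add₀ beta_pos.ne', ← zpow_add₀ beta_pos.ne']; ring_nf
  refine (mul_le_mul_of_nonneg_right hA2 (zpow_pos beta_pos _).le).trans ?_
  rw [e]
  exact mul_le_mul_of_nonneg_right hz (zpow_pos beta_pos _).le

lemma Good.right {A : ℝ} {z : ℂ} {H : ℕ} (hG : Good A z H) {i : ℤ} (hi : 2 * (H : ℤ) < i) :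
    |Real.sin (Real.pi * (A * beta ^ i))| ≤ 12 * ‖z‖ := by
  obtain ⟨hA1, hA2, hz, σ, hσ, hx⟩ := hG
  obtain ⟨x, hx⟩ := hx i
  have e : A * beta ^ i = (x : ℝ) + (-σ * (A * beta ^ (-i)) - 2 * (z * wc ^ i).re) := by
    linear_combination hx
  rw [e, abs_sin_pi_int_add]
  refine (abs_sin_pi_le _).trans ?_
  have h1 : |-σ * (A * beta ^ (-i))| ≤ ‖z‖ := by
    rw [abs_mul, abs_neg, hσ, one_mul,
      abs_of_nonneg (mul_nonneg (by linarith) (zpow_pos beta_pos _).le)]
    refine (mul_le_mul_of_nonneg_right hA2 (zpow_pos beta_pos _).le).trans (le_trans ?_ hz)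
    rw [← zpow_add₀ beta_pos.ne']
    exact zpow_le_zpow_right₀ beta_one_lt.le (by omega)
  have h2 := abs_two_re_le (z * wc ^ i)
  rw [norm_z_wc] at h2
  have h3 := abs_sub (-σ * (A * beta ^ (-i))) (2 * (z * wc ^ i).re)
  linarith

lemma Good.outside {A : ℝ} {z : ℂ} {H : ℕ} (hG : Good A z H) {i : ℤ} (hi : i ∉ win H) :
    |Real.sin (Real.pi * (A * beta ^ i))| ≤ 12 * ‖z‖ := by
  rw [win, Finset.mem_Icc] at hi
  by_cases h : i < -(2 * (H : ℤ))
  · refine (hG.left h).trans ?_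
    have h1 : beta ^ (i + 2 * (H : ℤ)) ≤ 1 :=
      zpow_le_one_of_nonpos₀ beta_one_lt.le (by omega)
    have h2 : ‖z‖ * beta ^ (i + 2 * (H : ℤ)) ≤ ‖z‖ :=
      mul_le_of_le_one_right (norm_nonneg _) h1
    have := norm_nonneg z
    linarith
  · exact hG.right (by omega)

lemma exp_le_one_sub {x : ℝ} (h0 : 0 ≤ x) (h1 : x ≤ 1 / 2) : Real.exp (-(2 * x)) ≤ 1 - x := by
  have h2 := Real.add_one_le_exp (2 * x)
  have h3 : Real.exp (-(2 * x)) * Real.exp (2 * x) = 1 := by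
    rw [← Real.exp_add]; simp
  have h4 := Real.exp_pos (-(2 * x))
  nlinarith

lemma abs_cos_ge_of_abs_sin_le {a d : ℝ} (h : |Real.sin a| ≤ d) (hd : d ^ 2 ≤ 1 / 2) :
    Real.exp (-(2 * d ^ 2)) ≤ |Real.cos a| := by
  have h1 : Real.sin a ^ 2 ≤ d ^ 2 := by
    rw [← sq_abs]; exact pow_le_pow_left₀ (abs_nonneg _) h 2
  refine (exp_le_one_sub (sq_nonneg d) hd).trans ?_
  have h2 := Real.sin_sq_add_cos_sq a
  have h3 := Real.abs_cos_le_one a
  have h4 : Real.cos a ^ 2 ≤ |Real.cos a| := by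
    rw [← sq_abs, sq]; exact mul_le_of_le_one_left (abs_nonneg _) h3
  linarith

/-- One step of the construction. -/
lemma Good.window_step {A : ℝ} {z : ℂ} {H : ℕ} (hG : Good A z H) {h : ℕ} (hh : 1 ≤ h)
    (hhH : 4 * H ≤ h) {m : ℝ} (hm : 0 < m) (hm2 : m ≤ 1 / 2) (hs : ‖z‖ ≤ 1 / 100)
    (hmar : ∀ i ∈ win H, m ≤ cfac A i)
    (hsmall : 12 * (‖z‖ * ‖eq' h‖) * (4 * (H : ℝ) + 1) ≤ m / 2) :
    (∀ i ∈ win (H + h), m - 12 * (‖z‖ * ‖eq' h‖) ≤ cfac (A * dq h) i) ∧
      prodP A H ^ 2 / 4 * Real.exp (-(5760 * ((H : ℝ) + h) * ‖z‖ ^ 2))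
        ≤ prodP (A * dq h) (H + h) := by
  have hG0 := hG
  obtain ⟨hA1, hA2, hz, σ, hσ, hx⟩ := hG
  set s' : ℝ := ‖z‖ * ‖eq' h‖ with hs'
  have hs'0 : 0 ≤ s' := by positivity
  have hex : ∀ i : ℤ, A * dq h * beta ^ i = A * beta ^ (i + h) - A * beta ^ (i - h) := fun i => by
    simp only [dq, sub_eq_add_neg, zpow_add₀ beta_pos.ne']; ring
  have hpert : ∀ k : ℤ, k ∈ win H → A * beta ^ (k - 2 * (h : ℤ)) ≤ s' := by
    intro k hk
    rw [win, Finset.mem_Icc] at hk
    refine (mul_le_mul_of_nonneg_right hA2 (zpow_pos beta_pos _).le).trans ?_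
    rw [← zpow_add₀ beta_pos.ne']
    refine le_trans ?_ (mul_le_mul hz (eq'_ge hh) (zpow_pos beta_pos _).le (norm_nonneg _))
    rw [← zpow_add₀ beta_pos.ne']
    exact zpow_le_zpow_right₀ beta_one_lt.le (by omega)
  -- the left copy of the window
  have hL : ∀ k ∈ win H, cfac A k - 12 * s' ≤ cfac (A * dq h) (k - h) := by
    intro k hk
    unfold cfac
    rw [hex, sub_add_cancel, show k - (h : ℤ) - h = k - 2 * (h : ℤ) by ring,
      sub_eq_add_neg (A * beta ^ k)]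
    refine le_trans ?_ (cos_pert _ _)
    have h1 := hpert k hk
    rw [abs_neg, abs_of_nonneg (mul_nonneg (by linarith) (zpow_pos beta_pos _).le)]
    linarith
  -- the right copy of the window
  have hR : ∀ k ∈ win H, cfac A k - 12 * s' ≤ cfac (A * dq h) (h - k) := by
    intro k hk
    obtain ⟨x, hx1⟩ := hx (2 * (h : ℤ) - k)
    obtain ⟨y, hy1⟩ := hx (-k)
    rw [neg_neg] at hy1
    rw [neg_sub] at hx1
    unfold cfac
    rw [hex, show (h : ℤ) - k + h = 2 * (h : ℤ) - k by ring,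
      show (h : ℤ) - k - h = -k by ring]
    set q : ℝ := -σ * (A * beta ^ (k - 2 * (h : ℤ)))
      - 2 * (z * wc ^ (2 * (h : ℤ) - k) - z * wc ^ (-k)).re with hq
    have e : A * beta ^ (2 * (h : ℤ) - k) - A * beta ^ (-k)
        = ((x - y : ℤ) : ℝ) + (σ * (A * beta ^ k) + q) := by
      rw [hq, Complex.sub_re]; push_cast
      linear_combination hx1 - hy1
    rw [e, abs_cos_pi_int_add]
    have hσc : |Real.cos (Real.pi * (σ * (A * beta ^ k)))|
        = |Real.cos (Real.pi * (A * beta ^ k))| := by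
      rcases abs_eq (zero_le_one' ℝ) |>.mp hσ with e | e <;> rw [e]
      · rw [one_mul]
      · rw [neg_one_mul, mul_neg, Real.cos_neg]
    refine le_trans ?_ (cos_pert _ _)
    rw [hσc]
    have h1 : |q| ≤ 3 * s' := by
      rw [hq]
      refine (abs_sub _ _).trans ?_
      have h2 : |-σ * (A * beta ^ (k - 2 * (h : ℤ)))| ≤ s' := by
        rw [abs_mul, abs_neg, hσ, one_mul,
          abs_of_nonneg (mul_nonneg (by linarith) (zpow_pos beta_pos _).le)]
        exact hpert k hk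
      have h3 := abs_two_re_le (z * wc ^ (2 * (h : ℤ) - k) - z * wc ^ (-k))
      have h4 : z * wc ^ (2 * (h : ℤ) - k) - z * wc ^ (-k)
          = z * eq' h * wc ^ ((h : ℤ) - k) := by
        simp only [eq', two_mul, sub_eq_add_neg, zpow_add₀ wc_ne, zpow_neg]
        field_simp [wc_ne]
      rw [h4, norm_z_wc, norm_mul] at h3
      rw [h4]
      linarith
    linarith
  -- all other positions
  have hO : ∀ i : ℤ, i + h ∉ win H → i - h ∉ win H →
      Real.exp (-(1152 * ‖z‖ ^ 2)) ≤ cfac (A * dq h) i ∧ 1 / 2 ≤ cfac (A * dq h) i := by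
    intro i h1 h2
    have h3 : |Real.sin (Real.pi * (A * dq h * beta ^ i))| ≤ 24 * ‖z‖ := by
      rw [hex]
      refine (abs_sin_pi_sub _ _).trans ?_
      linarith [hG0.outside h1, hG0.outside h2]
    have h4 : (24 * ‖z‖) ^ 2 ≤ 1 / 16 := by nlinarith [norm_nonneg z]
    have h5 := abs_cos_ge_of_abs_sin_le h3 (by linarith)
    refine ⟨?_, ?_⟩
    · refine le_trans (le_of_eq ?_) h5
      ring_nf
    · refine le_trans ?_ h5
      have := Real.add_one_le_exp (-(2 * (24 * ‖z‖) ^ 2))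
      linarith
  constructor
  · intro i hi
    by_cases h1 : i + h ∈ win H
    · have := hL _ h1
      rw [add_sub_cancel_right] at this
      linarith [hmar _ h1]
    by_cases h2 : i - h ∈ win H
    · have h2' : (h : ℤ) - i ∈ win H := by
        rw [win, Finset.mem_Icc] at h2 ⊢; omega
      have := hR _ h2'
      rw [sub_sub_cancel] at this
      linarith [hmar _ h2']
    linarith [(hO i h1 h2).2]
  set n : ℕ := 4 * H + 1 with hn
  set L : Finset ℤ := (win H).image (fun k => k - (h : ℤ)) with hLdef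
  set R : Finset ℤ := (win H).image (fun k => (h : ℤ) - k) with hRdef
  have hdis : Disjoint L R := by
    rw [Finset.disjoint_left]
    intro i hi hi'
    simp only [hLdef, hRdef, win, Finset.mem_image, Finset.mem_Icc] at hi hi'
    obtain ⟨a, ha, rfl⟩ := hi
    obtain ⟨b, hb, hb'⟩ := hi'
    omega
  have hsub : L ∪ R ⊆ win (H + h) := by
    intro i hi
    simp only [hLdef, hRdef, win, Finset.mem_union, Finset.mem_image, Finset.mem_Icc] at hi ⊢
    rcases hi with ⟨a, ha, rfl⟩ | ⟨a, ha, rfl⟩ <;> omega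
  have hP0 := prodP_nonneg A H
  have hcopy : ∀ g : ℤ → ℝ, (∀ k ∈ win H, cfac A k - 12 * s' ≤ g k) →
      prodP A H / 2 ≤ ∏ k ∈ win H, g k := by
    intro g hg
    set t : ℝ := 12 * s' / m with ht
    have ht0 : 0 ≤ t := by positivity
    have hnt : (n : ℝ) * t ≤ 1 / 2 := by
      rw [ht, ← mul_div_assoc, div_le_iff₀ hm, hn]
      push_cast
      linarith
    have ht1 : t ≤ 1 := by
      have : (1 : ℝ) ≤ n := by exact_mod_cast (show 1 ≤ n by omega)
      nlinarith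
    have h2 : prodP A H / 2 ≤ ∏ k ∈ win H, cfac A k * (1 - t) := by
      rw [Finset.prod_mul_distrib, Finset.prod_const, card_win, ← hn]
      have hb := one_add_mul_le_pow (a := -t) (by linarith) n
      rw [← sub_eq_add_neg] at hb
      have : (1 / 2 : ℝ) ≤ (1 - t) ^ n := by linarith
      have := mul_le_mul_of_nonneg_left this hP0
      unfold prodP at this ⊢
      linarith
    refine h2.trans (Finset.prod_le_prod (fun k _ => ?_) fun k hk => ?_)
    · exact mul_nonneg (cfac_nonneg A k) (by linarith)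
    · refine le_trans ?_ (hg k hk)
      have h3 : 12 * s' ≤ cfac A k * t := by
        have := hmar k hk
        rw [ht, ← mul_div_assoc, le_div_iff₀ hm]
        nlinarith
      linarith
  have hL2 : prodP A H / 2 ≤ ∏ i ∈ L, cfac (A * dq h) i := by
    rw [hLdef, Finset.prod_image (by intro a _ b _ hab; linarith)]
    exact hcopy _ hL
  have hR2 : prodP A H / 2 ≤ ∏ i ∈ R, cfac (A * dq h) i := by
    rw [hRdef, Finset.prod_image (by intro a _ b _ hab; linarith)]
    exact hcopy _ hR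
  have hrest : Real.exp (-(5760 * ((H : ℝ) + h) * ‖z‖ ^ 2))
      ≤ ∏ i ∈ win (H + h) \ (L ∪ R), cfac (A * dq h) i := by
    have hge : ∀ i ∈ win (H + h) \ (L ∪ R),
        Real.exp (-(1152 * ‖z‖ ^ 2)) ≤ cfac (A * dq h) i := by
      intro i hi
      rw [Finset.mem_sdiff, Finset.mem_union, not_or] at hi
      obtain ⟨-, h1, h2⟩ := hi
      refine (hO i (fun hh1 => h1 ?_) (fun hh2 => h2 ?_)).1
      · exact Finset.mem_image.mpr ⟨i + h, hh1, by ring⟩
      · refine Finset.mem_image.mpr ⟨(h : ℤ) - i, ?_, by ring⟩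
        rw [win, Finset.mem_Icc] at hh2 ⊢; omega
    refine le_trans ?_ (Finset.prod_le_prod (fun i _ => (Real.exp_pos _).le) hge)
    rw [Finset.prod_const, ← Real.exp_nat_mul, Real.exp_le_exp]
    have hcard : (win (H + h) \ (L ∪ R)).card ≤ 5 * (H + h) := by
      refine (Finset.card_le_card Finset.sdiff_subset).trans ?_
      rw [card_win]; omega
    have hcard' : ((win (H + h) \ (L ∪ R)).card : ℝ) ≤ 5 * ((H : ℝ) + h) := by
      exact_mod_cast hcard
    have := sq_nonneg ‖z‖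
    nlinarith
  have e : prodP (A * dq h) (H + h) = (∏ i ∈ win (H + h) \ (L ∪ R), cfac (A * dq h) i)
      * ((∏ i ∈ L, cfac (A * dq h) i) * ∏ i ∈ R, cfac (A * dq h) i) := by
    rw [← Finset.prod_union hdis, Finset.prod_sdiff hsub]; rfl
  rw [e, show prodP A H ^ 2 / 4 * Real.exp (-(5760 * ((H : ℝ) + h) * ‖z‖ ^ 2))
    = Real.exp (-(5760 * ((H : ℝ) + h) * ‖z‖ ^ 2)) * ((prodP A H / 2) * (prodP A H / 2)) by ring]
  refine mul_le_mul hrest (mul_le_mul hL2 hR2 (by linarith) ?_) (mul_nonneg (by linarith) (by linarith)) ?_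
  · exact le_trans (by linarith) hL2
  · exact Finset.prod_nonneg fun i _ => cfac_nonneg _ i

end Vale.Agent.P105
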